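import Vale.Agent.P236JT.Cj
import Vale.Agent.P236EL.Cd

/-!
# P236JT / Ce : cellular maps and connecting maps on computed classes, general windows
-/

noncomputable section

namespace Vale.Agent.P236JT

open Vale.Agent.P251.F Vale.Agent.P251.I Vale.Agent.P236SY Vale.Agent.P236R
open Vale.Agent.P236EL Vale.Agent.P236KE Vale.Agent.P236K3 Vale.Agent.P236F Vale.Agent.P236KE.S90
open Vale.Agent.P236J3 Vale.Agent.P236JF Vale.Agent.P236JX AddSubgroup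

/-- the data of the complex with cells -/
def eT (m : Nat) (E : JD) : JD := ⟨tK (cdN m) E.D, E.Q, E.T⟩
/-- two cells -/
def eA (E : JD) : JD := eT (nat_lit 2) E
/-- three cells -/
def eY (E : JD) : JD := eT (nat_lit 3) E

/-- the numbers of the generators on cells -/
abbrev iJ (E : JD) (m q : ℕ) : TG sph.G (Fin m) (q + 1) → ℕ := tix (E.D.L q) Fin.val Fin.val

namespace WJ

variable (E : JD) (s : Nat)

def ciA : WJ → WJ := op (eA E) s 0 0 0 0 (put (E.D.L s) 0)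
def ce0 : WJ → WJ := op (eY E) s 0 0 0 0 (put (E.D.L s) 0)
def cjA : WJ → WJ := op E s 0 1 0 0 (cel (E.D.L s) 1)
def cjy : WJ → WJ := op E s 0 2 0 0 (cel (E.D.L s) 2)
def cee : WJ → WJ := op (eY E) s 0 0 0 0 (mv (E.D.L s) ((eY E).D.L s) 0 1 0 1)
def cqq : WJ → WJ := op (eA E) s 0 1 0 0 (mv (E.D.L s) ((eA E).D.L s) 1 2 0 1)
def cpp (v : WJ) : WJ := cee E s (cqq E s v)
def cat : WJ → WJ := op (eA E) (Nat.succ s) 2 0 0 0 fun v =>
  sm (Nat.pow 2 (Nat.succ s)) (mv (E.D.L (Nat.succ s)) ((eA E).D.L (Nat.succ s)) 0 1 0 1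
    (dl (eY E).D E.Q s 0 0 (put (E.D.L s) 2 v)))
def cab : WJ → WJ := op E (Nat.succ s) 1 0 0 0 fun v =>
  sm (Nat.pow 2 (Nat.succ s)) (cel (E.D.L (Nat.succ s)) 0
    (dl (eY E).D E.Q s 0 0 (mv (E.D.L s) ((eY E).D.L s) 0 1 1 2 v)))
def cal (v : WJ) : WJ := cjA E (Nat.succ s) (cat E s v)
/-- the unit -/
def one : WJ := nm E 0 0 [(0, 0)] [(3, 3)] [⟨0, 0, 0, 0, 0, 1⟩]

end WJ

variable [hp : Fact (Nat.Prime 3)] {r : Rs 3 K sph.G} {h0 : r.deg 0 default = 0}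
  {h1 : r.th default default = 1}

theorem hm_iA : Hm r (r.cA h0 h1) (bf sph.G (0 : Fin 2)) 0 :=
  Hm.bot fun c => by fin_cases c <;> simp [Ga.cm, Ga.ent, Ga.two]

theorem hm_e0 : Hm r (r.cY h0 h1) (bf sph.G (0 : Fin 3)) 0 :=
  Hm.bot fun c => by fin_cases c <;> simp [Ga.cm, Ga.ent, Ga.three]

theorem hm_jA : Hm (r.cA h0 h1) r (pf sph.G (1 : Fin 2)) (-1) :=
  Hm.top fun c => by fin_cases c <;> simp [Ga.cm, Ga.ent, Ga.two]

theorem hm_jy : Hm (r.cY h0 h1) r (pf sph.G (2 : Fin 3)) (-2) :=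
  Hm.top fun c => by fin_cases c <;> simp [Ga.cm, Ga.ent, Ga.three]

theorem hm_ee : Hm (r.cA h0 h1) (r.cY h0 h1) (tf sph.G (sf 2 3 0 0)) 0 :=
  Hm.tens (fun c k => by
    fin_cases c <;> fin_cases k <;> simp [Ga.cm, Ga.ent, Ga.two, Ga.three, sf, Fin.sum_univ_succ])
    fun c k => by fin_cases c <;> fin_cases k <;> simp [sf, Ga.cm, Ga.two, Ga.three]

theorem hm_qq : Hm (r.cY h0 h1) (r.cA h0 h1) (tf sph.G (sf 3 2 1 0)) (-1) :=
  Hm.tens (fun c k => by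
    fin_cases c <;> fin_cases k <;> simp [Ga.cm, Ga.ent, Ga.two, Ga.three, sf, Fin.sum_univ_succ])
    fun c k => by fin_cases c <;> fin_cases k <;> simp [sf, Ga.cm, Ga.two, Ga.three]

theorem ses_A : Ses (r.cA h0 h1) (r.cY h0 h1) r (tf sph.G (sf 2 3 0 0)) (pf sph.G (2 : Fin 3))
    (tf sph.G (sf 3 2 0 0)) (bf sph.G (2 : Fin 3)) 0 (-2) where
  hi := hm_ee
  hf := hm_jy
  hρ := dg_tf fun c k => by fin_cases c <;> fin_cases k <;> simp [sf, Ga.cm, Ga.two, Ga.three]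
  hσ := dg_bf (2 : Fin 3)
  ρi _ u := funext fun ⟨w, c⟩ => (tf_tf _ _ u w c).trans (by
    fin_cases c <;> simp [sf, Fin.sum_univ_succ])
  fσ _ := pf_bf _
  sp _ u := funext fun ⟨w, c⟩ => by
    refine (congrArg₂ (· + ·) (bf_pf _ u w c) (tf_tf _ _ u w c)).trans ?_
    fin_cases c <;> simp [sf, Fin.sum_univ_succ]

theorem ses_S : Ses r (r.cY h0 h1) (r.cA h0 h1) (bf sph.G (0 : Fin 3)) (tf sph.G (sf 3 2 1 0))
    (pf sph.G (0 : Fin 3)) (tf sph.G (sf 2 3 0 1)) 0 (-1) where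
  hi := hm_e0
  hf := hm_qq
  hρ := dg_pf (0 : Fin 3)
  hσ := dg_tf fun c k => by fin_cases c <;> fin_cases k <;> simp [sf, Ga.cm, Ga.two, Ga.three]
  ρi _ := pf_bf _
  fσ _ u := funext fun ⟨w, c⟩ => (tf_tf _ _ u w c).trans (by
    fin_cases c <;> simp [sf, Fin.sum_univ_succ])
  sp _ u := funext fun ⟨w, c⟩ => by
    refine (congrArg₂ (· + ·) (tf_tf _ _ u w c) (bf_pf _ u w c)).trans ?_
    fin_cases c <;> simp [sf, Fin.sum_univ_succ]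

variable (r h0 h1) (t : Cob Laz 1) (E : JD)

/-- the three resolutions with their data -/
structure W3 (Tm s3 s4 : ℕ) : Prop where
  ht : IsT1 3 t
  S : WxJ r 0 E iS Tm s3 s4
  A : WxJ (r.cA h0 h1) (θA t) (eA E) (iJ E 2) Tm s3 s4
  Y : WxJ (r.cY h0 h1) (θY t) (eY E) (iJ E 3) Tm s3 s4

/-- classes on the sphere -/
abbrev JS (s : ℕ) (x : Fin 1 → Cob Laz s) (v : WJ) : Prop := CVJ r 0 E iS s x v
/-- classes on `C α` -/
abbrev JA (s : ℕ) (x : Fin 2 → Cob Laz s) (v : WJ) : Prop :=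
  CVJ (r.cA h0 h1) (θA t) (eA E) (iJ E 2) s x v
/-- classes on `Y` -/
abbrev JY (s : ℕ) (x : Fin 3 → Cob Laz s) (v : WJ) : Prop :=
  CVJ (r.cY h0 h1) (θY t) (eY E) (iJ E 3) s x v

variable {r h0 h1 t E} {Tm s3 s4 s : ℕ} {v : WJ}

theorem W3.of (ht : IsT1 3 t) (hS : WxJ r 0 E iS Tm s3 s4)
    (hA : WdJ (r.cA h0 h1) (θA t) (Jr K 3) E.Q E.T)
    (hY : WdJ (r.cY h0 h1) (θY t) (Jr K 3) E.Q E.T) : W3 r h0 h1 t E Tm s3 s4 :=
  ⟨ht, hS, ⟨hA, cxJ_tens hS.cx cdN_two h0 h1, hS.hT⟩, ⟨hY, cxJ_tens hS.cx cdN_three h0 h1, hS.hT⟩⟩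

theorem op_bf (hL : (E.D.L s).Ok (iS s)) {m : ℕ} (c : Fin m) : OP (E.D.L s) (iS s)
    (tL (cdN m) (E.D.L s)) (iJ E m s) (WJ.put (E.D.L s) c) (zm _ (bf sph.G c (s + 1))) :=
  (op_put hL c).cast fun u => funext fun a => (zm_bf c u a.1 a.2).symm

theorem op_pf (hL : (E.D.L s).Ok (iS s)) {m : ℕ} (c : Fin m) : OP (tL (cdN m) (E.D.L s)) (iJ E m s)
    (E.D.L s) (iS s) (WJ.cel (E.D.L s) c) (zm _ (pf sph.G c (s + 1))) :=
  (op_cel hL c).cast fun u => funext fun w => (zm_pf c u w).symm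

namespace W3

variable (H : W3 r h0 h1 t E Tm s3 s4)

include H

theorem jA {x : Fin 2 → Cob Laz s} (h : JA r h0 h1 t E s x v) :
    JS r E s (fun _ => x 1) (v.cjA E s) :=
  (h.hm (H.S.cx.ok s) hm_jA nat_jA 0 1 rfl (op_pf (H.S.cx.ok s) 1)).cast (funext (zm_pf_zero _ x))

theorem jy {x : Fin 3 → Cob Laz s} (h : JY r h0 h1 t E s x v) :
    JS r E s (fun _ => x 2) (v.cjy E s) :=
  (h.hm (H.S.cx.ok s) hm_jy nat_jy 0 2 rfl (op_pf (H.S.cx.ok s) 2)).cast (funext (zm_pf_zero _ x))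

theorem iA {x : Fin 1 → Cob Laz s} (h : JS r E s x v) :
    JA r h0 h1 t E s ![x 0, 0] (v.ciA E s) :=
  (h.hm (H.A.cx.ok s) hm_iA nat_iA 0 0 rfl (op_bf (H.S.cx.ok s) 0)).cast
    (funext fun c : Fin 2 => by
      change ∑ a : Fin 1, (if c = 0 then 1 else 0 : ℤ) • x a = _
      fin_cases c <;> simp)

theorem e0 {x : Fin 1 → Cob Laz s} (h : JS r E s x v) :
    JY r h0 h1 t E s ![x 0, 0, 0] (v.ce0 E s) :=
  (h.hm (H.Y.cx.ok s) hm_e0 nat_e0 0 0 rfl (op_bf (H.S.cx.ok s) 0)).cast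
    (funext fun c : Fin 3 => by
      change ∑ a : Fin 1, (if c = 0 then 1 else 0 : ℤ) • x a = _
      fin_cases c <;> simp)

theorem op_ee : OP ((eA E).D.L s) (iJ E 2 s) ((eY E).D.L s) (iJ E 3 s)
    (WJ.mv (E.D.L s) ((eY E).D.L s) 0 1 0 1) (zm _ (tf sph.G (sf 2 3 0 0) (s + 1))) :=
  (op_mv (H.S.cx.ok s) (H.Y.cx.ok s) (0 : Fin 2) 1 0 1).cast fun u => funext fun ⟨w, c⟩ => by
    rw [zm_tf]
    fin_cases c <;> simp [sf]

theorem op_qq : OP ((eY E).D.L s) (iJ E 3 s) ((eA E).D.L s) (iJ E 2 s)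
    (WJ.mv (E.D.L s) ((eA E).D.L s) 1 2 0 1) (zm _ (tf sph.G (sf 3 2 1 0) (s + 1))) :=
  (op_mv (H.S.cx.ok s) (H.A.cx.ok s) (1 : Fin 3) 2 0 1).cast fun u => funext fun ⟨w, c⟩ => by
    rw [zm_tf]
    fin_cases c <;> simp [sf, Fin.sum_univ_succ]

theorem op_ρ : OP ((eY E).D.L s) (iJ E 3 s) ((eA E).D.L s) (iJ E 2 s)
    (WJ.mv (E.D.L s) ((eA E).D.L s) 0 1 0 1) (zm _ (tf sph.G (sf 3 2 0 0) (s + 1))) :=
  (op_mv (H.S.cx.ok s) (H.A.cx.ok s) (0 : Fin 3) 1 0 1).cast fun u => funext fun ⟨w, c⟩ => by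
    rw [zm_tf]
    fin_cases c <;> simp [sf, Fin.sum_univ_succ]

theorem op_σ : OP ((eA E).D.L s) (iJ E 2 s) ((eY E).D.L s) (iJ E 3 s)
    (WJ.mv (E.D.L s) ((eY E).D.L s) 0 1 1 2) (zm _ (tf sph.G (sf 2 3 0 1) (s + 1))) :=
  (op_mv (H.S.cx.ok s) (H.Y.cx.ok s) (0 : Fin 2) 1 1 2).cast fun u => funext fun ⟨w, c⟩ => by
    rw [zm_tf]
    fin_cases c <;> simp [sf]

theorem ee {x : Fin 2 → Cob Laz s} (h : JA r h0 h1 t E s x v) :
    JY r h0 h1 t E s ![x 0, x 1, 0] (v.cee E s) :=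
  (h.hm (H.Y.cx.ok s) hm_ee nat_ee 0 0 rfl H.op_ee).cast (funext fun c : Fin 3 => by
    change ∑ i, sf 2 3 0 0 i c • x i = _
    fin_cases c <;> simp [sf])

theorem qq {x : Fin 3 → Cob Laz s} (h : JY r h0 h1 t E s x v) :
    JA r h0 h1 t E s ![x 1, x 2] (v.cqq E s) :=
  (h.hm (H.A.cx.ok s) hm_qq nat_qq 0 1 rfl H.op_qq).cast (funext fun c : Fin 2 => by
    change ∑ i, sf 3 2 1 0 i c • x i = _
    fin_cases c <;> simp [sf, Fin.sum_univ_succ])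

/-- the operation `P` -/
theorem pp {x : Fin 3 → Cob Laz s} (h : JY r h0 h1 t E s x v) :
    JY r h0 h1 t E s ![x 1, x 2, 0] (v.cpp E s) := H.ee (H.qq h)

/-- the coextension of `α` -/
theorem at' {x : Fin 1 → Cob Laz s} (h : JS r E s x v) :
    JA r h0 h1 t E (s + 1) (fun j => Cob.cup (x 0) (![2 * t ^ 2, 2 * t] j)) (v.cat E s) :=
  h.op (H.A.cx.ok _) (fun _ _ hv => (H.op_ρ _ _ ((pr_ok H.Y.cx).sd _ _
    (op_bf (H.S.cx.ok s) (2 : Fin 3) _ _ hv))).sm _) fun T₁ T' c c' u h2 h3 h4 h5 h6 => by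
    have h7 := (rc_conn (w := T') (x := x) (u := u) H.Y.wd H.S.wd ses_A (s0_A H.ht) h2 h4
      (inv_mI _) (inv_mI _) h5 ((show (T₁ : ℤ) = T' + -2 by omega) ▸ h6)).zsmul ((-1) ^ (s + 1))
    rw [sgn_eq, neg_zero, add_zero] at h7
    rw [shC_zero, shC_zero, ← cn_A]
    exact h7

/-- the extension of `α` -/
theorem ab {x : Fin 2 → Cob Laz s} (h : JA r h0 h1 t E s x v) :
    JS r E (s + 1) (fun _ => Cob.cup (x 0) (2 * t) + Cob.cup (x 1) (2 * t ^ 2)) (v.cab E s) :=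
  h.op (H.S.cx.ok _) (fun _ _ hv => (op_pf (H.S.cx.ok _) (0 : Fin 3) _ _ ((pr_ok H.Y.cx).sd _ _
    (H.op_σ _ _ hv))).sm _) fun T₁ T' c c' u h2 h3 h4 h5 h6 => by
    have h7 := (rc_conn (w := T') (x := x) (u := u) H.Y.wd H.A.wd ses_S (s0_S H.ht) h2 h4
      (inv_mI _) (inv_mI _) h5 ((show (T₁ : ℤ) = T' + -1 by omega) ▸ h6)).zsmul ((-1) ^ (s + 1))
    rw [sgn_eq, neg_zero, add_zero] at h7
    rw [shC_zero, shC_zero, ← cn_S]
    exact h7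

/-- the right multiplication by `α` -/
theorem al {x : Fin 1 → Cob Laz s} (h : JS r E s x v) :
    JS r E (s + 1) (fun _ => Cob.cup (x 0) (2 * t)) (v.cal E s) := H.jA (H.at' h)

/-- the unit -/
theorem one (hd : r.deg = rS.deg) (he : r.e = rS.e) : JS r E 0 (fun _ => 1) (WJ.one E) := by
  have h2 : (fun _ => 1) ∈ ZS 0 0 := by simpa using zs_v H.ht 0
  have h3 : r.deg 0 = fun _ => 0 := congrFun hd 0
  refine cv_nm (H.S.cx.ok 0) (.of (h3 ▸ h2) ?_)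
  have h4 := RJ.self (R := r) (K' := mI [(3, 3)]) (h3 ▸ h2.1) (mem_Fl_top p3 _)
  rw [mI_top]
  refine (congrArg _ ?_).mp h4
  refine (congrArg _ (funext fun _ => (one_smul ℤ _).symm)).trans ((Ph_cells 1 fun _ => 1).trans ?_)
  rw [map_one, Rs.star_one, he]
  funext w
  rw [eq_g0 w]
  simp [vL, Sq.rs, P236F.g0, P236K2.mk4]

end W3

theorem JS.base {m : ℕ} {z : Cob Laz m} {e : m + 0 = m} (h : JS r E m (lc _ e z fun _ => 1) v) :
    JS r E m (fun _ => z) v := h.cast (funext fun _ => cupE_one z)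

end Vale.Agent.P236JT

end
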