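import Vale.Agent.P236JT.Lf
import Vale.Agent.P236JY.EmF

/-!
# P236JT / Fa : chains of windows and representatives of all classes
-/

noncomputable section

namespace Vale.Agent.P236JT

open Vale.Agent.P251.F Vale.Agent.P251.I Vale.Agent.P236SY Vale.Agent.P236R MvPolynomial
open Vale.Agent.P236EL Vale.Agent.P236KE Vale.Agent.P236K2 Vale.Agent.P236K3 Vale.Agent.P236F
open Vale.Agent.P236J3 Vale.Agent.P236JF Vale.Agent.P236JX AddSubgroup

/-- the first window of a chain -/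
def hd (e : Cs) (l : List (Cs × Cs × Cs)) : Cs :=
  List.rec (motive := fun _ => Cs) e (fun x _ _ => x.1) l

/-- a chain of steps without classes which ends at `e` -/
def chF (E : JD) (s T : Nat) (e : Cs) (l : List (Cs × Cs × Cs)) : Bool :=
  List.rec (motive := fun _ => Bool) true
    (fun x t r => grd (E.geF s T x.1 x.2.1 x.2.2 (hd e t) []) r) l

/-- the sources lie in `m` -/
def chM (m : Cs) (l : List (Cs × Cs × Cs)) : Bool := l.all fun x => Le x.2.2 m

variable [hp : Fact (Nat.Prime 3)] {G : ℕ → Type} [∀ q, Fintype (G q)] [DecidableEq (G 0)]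
  {R : Rs 3 K G} {θ : G 0 → G 0 → Cob Laz 1} {E : JD} {ix : ∀ q, G (q + 1) → ℕ}
  {Tm s3 s4 s T lo N : ℕ} {c c' c1 c2 cb e m n : Cs} {l : List (Cs × Cs × Cs)}
  {ks ls : List (List Tr)} {x : G 0 → Cob Laz s} {u : G (s + 1) → A}
  {𝒵 : AddSubgroup (G 0 → Cob Laz s)} {P : (G 0 → Cob Laz s) → Prop}
  (H : WxJ R θ E ix Tm s3 s4)

include H

theorem ch_ind {Q : Cs → Prop} (hc : chF E s T e l = true)
    (hq : ∀ x ∈ l, ∀ c2, E.ge s T x.1 x.2.1 x.2.2 c2 [] = true → Q c2 → Q x.1) (h : Q e) :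
    Q (hd e l) := by
  induction l with
  | nil => exact h
  | cons x t ih =>
    obtain ⟨h1, h2⟩ := grd_spec hc
    exact hq x List.mem_cons_self _ (H.geF h1) (ih h2 fun y hy => hq y (List.mem_cons_of_mem _ hy))

/-- a chain for coboundaries -/
theorem htCh (hc : chF E s T e l = true) (hm : chM m l = true) (h : HT R θ s T e m n) :
    HT R θ s T (hd e l) m n :=
  ch_ind H (Q := fun c => HT R θ s T c m n) hc
    (fun x hx _ h1 => H.htStep _ _ h1 (List.all_eq_true.1 hm x hx)) h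

/-- a chain for generators -/
theorem hgCh (hc : chF E s T e l = true) (h : HG R θ T e 𝒵) : HG R θ T (hd e l) 𝒵 :=
  ch_ind H (Q := fun c => HG R θ T c 𝒵) hc (fun _ _ _ h1 => H.hgStep _ _ _ h1 .nil) h

/-- a chain for properties of all classes -/
theorem ajCh (hc : chF E s T e l = true) (h : AJ R θ T e P) : AJ R θ T (hd e l) P :=
  ch_ind H (Q := fun c => AJ R θ T c P) hc (fun _ _ _ => H.ajSkip _ _) h

/-- **cocycles which are multiples of the cube of `v_1` are coboundaries** -/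
theorem hv (hc : E.htAF s T lo N = true) : HG R θ T [(3, lo + 3)] 𝒵 := by
  have h0 := H.htAF hc
  rw [JD.htA] at h0
  have h1 := loop_grd (g := E.ht1 s T lo) (p := fun j => E.st s T (lo + j) (lo + j + 1) = true)
    (fun _ _ h => by
      rw [JD.ht1, force_eq, JD.ht2, force_eq] at h
      exact grd_spec h) (grd_spec h0).2
  have h2 : ∀ j ≤ N, HG R θ T [(3, lo + j + 3)] 𝒵 := fun j hj => by
    induction hj using Nat.decreasingInduction with
    | self => exact H.hgEm (grd_spec h0).1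
    | of_succ j hj ih =>
      have h3 := h1 j hj
      rw [JD.st, force_eq, JD.st1, force_eq, JD.st2, force_eq, JD.st3] at h3
      exact H.hgStep _ _ _ h3 .nil ih
  exact h2 0 N.zero_le

/-- **representatives of all classes of filtration `c`** -/
theorem rep (hc : E.geF s T c c1 cb c2 ls = true) :
    AJ R θ T c (· ∈ LdJ R θ T (mI cb) (mI c2) (spn (ix s) ls)) := fun x hx => by
  obtain ⟨h1, h2, h3, h4, -, h6⟩ := H.ge (H.geF hc)
  obtain ⟨y, hy, h5⟩ := hx.ex
  obtain ⟨u, hu, h7⟩ := H.wd.lead h2 h1 (inv_mI _) (inv_mI _) h4 h3 bot_le h6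
    (ZC_le_XN (sub_mem hx.zc (H.wd.bz hy))) h5.fl
  exact ⟨u, hu, hx.zc, y, hy, h7⟩

/-- representatives of all classes -/
theorem rep0 (hc : E.geF s T [(0, 0)] c1 cb c2 ls = true) (hx : x ∈ ZC 3 θ (R.deg 0) T 3 s) :
    ∃ u ∈ spn (ix s) ls, RcJ R θ s T (mI cb) (mI c2) x u := (rep H hc).all x hx

/-- the same with two lists -/
theorem rep2 (hc : E.geF s T [(0, 0)] c1 cb c2 (List.append ks ls) = true)
    (hx : x ∈ ZC 3 θ (R.deg 0) T 3 s) :
    ∃ u ∈ spn (ix s) ks ⊔ spn (ix s) ls, RcJ R θ s T (mI cb) (mI c2) x u :=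
  (rep0 H hc hx).imp fun _ h => ⟨WxJ.spn_append h.1, h.2⟩

/-- **a class whose terms lie in `m` has filtration `m`** -/
theorem toAJ (hP : AJ R θ T m P) (h : RcJ R θ s T (mI c) (mI c') x u) (hu : u ∈ spn (ix s) ls)
    (hc : E.bn s T (grd (Vis c c') (grd (Le c' m) (E.oks s T m ls))) = true) : P x := by
  obtain ⟨h1, -, h2, h3⟩ := H.bn hc
  obtain ⟨h4, h3⟩ := grd_spec h3
  obtain ⟨h5, h3⟩ := grd_spec h3
  obtain ⟨y, hy, h6, -⟩ := H.wd.fl h2 h1.le h (inv_mI _) (inv_mI m) (Vis.mul h4) (Le.mI h5)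
    (H.za h3 hu)
  exact hP x (H.wd.cong (rcJ_any (inv_mI m) (sub_mem h.zc (H.wd.bz hy)) h6)
    (by rwa [sub_sub_cancel]))

theorem ajG (h : HG R θ T c 𝒵) : AJ R θ T c (· ∈ 𝒵 ⊔ BQ 3 θ (R.deg 0) T 3 s) :=
  H.ajOf h fun _ h => h

/-- vanishing -/
theorem van (hc : E.geF s T [(0, 0)] [(3, 3)] [(0, 0)] [(3, 3)] [] = true)
    (h : E.htAF s T 0 N = true) : ZC 3 θ (R.deg 0) T 3 s ≤ BQ 3 θ (R.deg 0) T 3 s :=
  (H.hgStep _ _ _ (H.geF hc) .nil (hv H h)).van

/-- **existence of a class in a given window** -/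
theorem exW {μ : List Tr} (hc : E.clF s T c c' m μ = true) (h1 : Le n c = true)
    (h2 : Le n c2 = true) (h3 : Le m c2 = true) (h : HT R θ (s + 1) T c' n []) :
    ∃ x, CVJ R θ E ix s x (WJ.nm E s T c c2 μ) :=
  (H.exC (H.exN c' n m (H.clF_eq ▸ hc) h1 h2 h3 h)).imp fun _ h => cv_nm (H.cx.ok s) h

/-- the end of a chain for coboundaries -/
theorem htI (h : E.htAF s T lo N = true) (hm : Le [(0, lo + 1)] m = true) :
    HT R θ s T [(3, lo + 3)] m [] :=
  (H.hi (H.htAF h) lo le_rfl).mono (Le.refl _) hm rfl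

end Vale.Agent.P236JT

end
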