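import Vale.Agent.P236JT.Ce
import Vale.Agent.P236JX.Tr

/-!
# P236JT / Ck : statements about computed classes, general windows
-/

noncomputable section

namespace Vale.Agent.P236JT

open Vale.Agent.P251.F Vale.Agent.P251.I Vale.Agent.P236SY Vale.Agent.P236R MvPolynomial
open Vale.Agent.P236EL Vale.Agent.P236KE Vale.Agent.P236K2 Vale.Agent.P236K3 Vale.Agent.P236F
open Vale.Agent.P236J3 Vale.Agent.P236JF Vale.Agent.P236JX AddSubgroup

namespace WJ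

variable (E : JD) (s T : Nat)

/-- the value lies in the span of the lists, modulo boundaries -/
def mL (c c' : Cs) (ls : List (List Tr)) (v : WJ) : Bool := E.bn s T (grd (Vis c c')
  (grd (E.oks s T c ls) (exa (E.D.L s) T c c' v fun p => E.D.inJ s T c c' (E.vcs s c' ls) (cst' p))))
/-- the value is the list, modulo boundaries -/
def tl (c c' : Cs) (l : List Tr) (v : WJ) : Bool := E.bn s T (grd (Vis c c')
  (grd (P236JX.okJ (E.D.L s) T c l) (exa (E.D.L s) T c c' v fun p =>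
    E.D.inJ s T c c' [] ((cst' p).add (vcJ (E.D.L s) c' l).neg))))
/-- the value lies in the span of the values, modulo boundaries -/
def mb (c c' : Cs) (l : List WJ) (v : WJ) : Bool := E.bn s T (grd (Vis c c')
  (exa (E.D.L s) T c c' v fun p => runW (E.D.L s) T c c' l fun l => E.D.inJ s T c c' l (cst' p)))
/-- the value does not lie in the span of the values, modulo boundaries -/
def no (c c' : Cs) (l : List WJ) (v : WJ) : Bool := E.bn s T (grd (Vis c c')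
  (exa (E.D.L s) T c c' v fun p => runW (E.D.L s) T c c' l fun l => E.noL s T c c' l (cst' p)))
/-- the values generate -/
def ge (c c1 cb c2 : Cs) (l : List WJ) : Bool := E.bn s T (grd (Vis c c1) (grd (Le c cb)
  (grd (Vis cb c2) (runW (E.D.L s) T cb c2 l fun l => E.D.genJ s T c c1 cb c2 l))))
/-- the value vanishes modulo `n` and is not a boundary of the window `m`, `c2` -/
def nd (c c' n m c2 : Cs) (v : WJ) : Bool := E.bn s T (grd (grd (Vis c c') (Vis m c2))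
  (grd (grd (Le c' n) (Le c m)) (grd (Le c' c2) (exa (E.D.L s) T c c' v fun p =>
    grd (E.D.isZJ s T c n (cst' p)) (E.D.noJ s T m c2 (E.D.reJ s T c c2 (cst' p)))))))

end WJ

variable [hp : Fact (Nat.Prime 3)] {G : ℕ → Type} [∀ q, Fintype (G q)] {R : Rs 3 K G}
  {θ : G 0 → G 0 → Cob Laz 1} {E : JD} {ix : ∀ q, G (q + 1) → ℕ} {s T a b : ℕ}
  {c c' c1 c2 cb m n n' : Cs} {x : G 0 → Cob Laz s} {v : WJ} {𝒵 : AddSubgroup (G 0 → Cob Laz s)}
  {l : List WJ} {zs : List (G 0 → Cob Laz s)} {ls : List (List Tr)} {μ : List Tr}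

/-- the values of a list of generators in a given window -/
theorem run_gen (hL : (E.D.L s).Ok (ix s)) (h : List.Forall₂ (CVJ R θ E ix s) zs l)
    {κ : List VC → Bool} (hc : WJ.runW (E.D.L s) T c c' l κ = true) :
    ∃ l' φ, List.Forall₂ (VRJ (E.D.L s) (ix s) T c c') l' φ ∧
      closure {z | z ∈ zs} ≤ LdJ R θ T (mI c) (mI c') (closure {u | u ∈ φ}) ∧ κ l' = true := by
  simp only [closure_le]
  induction h generalizing κ with
  | nil => exact ⟨[], [], .nil, (fun _ h => nomatch h), hc⟩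
  | cons h2 _ ih =>
    obtain ⟨u, p, h3, h4, h5⟩ := h2.exa hL hc
    obtain ⟨l', φ, h6, h7, h8⟩ := ih h5
    refine ⟨_, u :: φ, .cons h4 h6, fun z hz => ?_, h8⟩
    rcases List.mem_cons.1 hz with rfl | hz
    · exact ⟨u, subset_closure List.mem_cons_self, h3⟩
    · exact (h7 hz).imp fun _ h => ⟨closure_mono (fun _ => List.mem_cons_of_mem _) h.1, h.2⟩

/-- tests on computed classes -/
theorem sj_of (hL : (E.D.L s).Ok (ix s)) {C : WJ → Bool} {P : (G 0 → Cob Laz s) → Prop}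
    (h : ∀ x v, CVJ R θ E ix s x v → C v = true → P x) :
    SJ R θ ix T c c' (fun m => C (WJ.nm E s T c c' m)) P := fun _ x hc hx => h x _ (cv_nm hL hx) hc

/-- classes given by another resolution -/
theorem cv_old (hL : (E.D.L s).Ok (ix s)) {R' : Rs 3 K G} {q : ℕ} (hN : R'.Near R (II 3 K ^ 3) q)
    (hs : s ≤ q) (hb : b ≤ a + 3) (h : Rc R' θ s T a b x (vL (ix s) μ)) :
    CVJ R θ E ix s x (WJ.nm E s T [(0, a)] [(0, b)] μ) := cv_nm hL (RL.of (hN.rc hs hb h))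

variable [DecidableEq (G 0)] {Tm s3 s4 : ℕ} (H : WxJ R θ E ix Tm s3 s4)

include H

namespace CVJ

theorem mL (h : CVJ R θ E ix s x v) (hc : v.mL E s T c c' ls = true) :
    x ∈ LdJ R θ T (mI c) (mI c') (spn (ix s) ls) := by
  obtain ⟨h1, h2, -, h4⟩ := H.bn hc
  obtain ⟨h5, h4⟩ := grd_spec h4
  obtain ⟨h6, h4⟩ := grd_spec h4
  obtain ⟨u, p, h7, h8, h9⟩ := h.exa (H.cx.ok s) h4
  obtain ⟨u', hu, e, he, rfl⟩ := mem_sup.1
    (H.cx.inB h1.le (add_zero _).symm h2 h5 (H.vrs h6) WxJ.mem_map h8 h9)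
  exact ⟨u', hu, h7.congr (by rwa [add_sub_cancel_left])⟩

/-- **the terms of a computed class** -/
theorem tl (h : CVJ R θ E ix s x v) (hc : v.tl E s T c c' μ = true) : RL R θ ix s T c c' x μ := by
  obtain ⟨h1, h2, -, h4⟩ := H.bn hc
  obtain ⟨h5, h4⟩ := grd_spec h4
  obtain ⟨h6, h4⟩ := grd_spec h4
  obtain ⟨u, p, h7, h8, h9⟩ := h.exa (H.cx.ok s) h4
  exact h7.congr (sub_eq_add_neg u _ ▸
    H.cx.inB' h1.le (add_zero _).symm h2 h5 (h8.add (H.vr h6).neg) h9)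

theorem rcM (h : CVJ R θ E ix s x v) (hl : CLJ R θ E ix 𝒵 l) (hc : v.mb E s T c c' l = true) :
    ∃ z ∈ 𝒵, RL R θ ix s T c c' (x - z) [] := by
  obtain ⟨h1, h2, -, h4⟩ := H.bn hc
  obtain ⟨h5, h4⟩ := grd_spec h4
  obtain ⟨u, p, h7, h8, h9⟩ := h.exa (H.cx.ok s) h4
  obtain ⟨l', φ, h10, h11, h12⟩ := hl.runW (H.cx.ok s) h9
  obtain ⟨_, ⟨z, hz, h13⟩, e, he, rfl⟩ :=
    mem_sup.1 (H.cx.inB h1.le (add_zero _).symm h2 h5 h10 h11 h8 h12)
  exact ⟨z, hz, (h7.sub h13).congr (u' := 0) (by simpa using he)⟩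

/-- **membership** -/
theorem mem (h : CVJ R θ E ix s x v) (hl : CLJ R θ E ix 𝒵 l) (hg : HG R θ T c' 𝒵)
    (hc : v.mb E s T c c' l = true) : x ∈ 𝒵 ⊔ BQ 3 θ (R.deg 0) T 3 s := by
  obtain ⟨z, hz, h1⟩ := h.rcM H hl hc
  obtain ⟨h2, -, h3, h4⟩ := H.bn hc
  simpa using add_mem (H.wd.mem h3 h2.le h1 (inv_mI _) (inv_mI _) (Vis.mul (grd_spec h4).1)
    (zero_mem _) hg) (mem_sup_left hz)

theorem memB (h : CVJ R θ E ix s x v)
    (hg : HG R θ T c' (⊥ : AddSubgroup (G 0 → Cob Laz s))) (hc : v.mb E s T c c' [] = true) :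
    x ∈ BQ 3 θ (R.deg 0) T 3 s := by simpa using h.mem H .nil hg hc

/-- a class of high filtration -/
theorem high (h : CVJ R θ E ix s x v) (hc : v.mb E s T c c' [] = true) :
    RL R θ ix s T c c' x [] := by
  obtain ⟨_, rfl, h1⟩ := h.rcM H (𝒵 := ⊥) .nil hc
  rwa [sub_zero] at h1

/-- **non-vanishing modulo the cube of `v_1`** -/
theorem notJ (h : CVJ R θ E ix s x v) (hl : List.Forall₂ (CVJ R θ E ix s) zs l)
    (hc : v.no E s T [(0, 0)] c2 l = true) :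
    x ∉ closure {z | z ∈ zs} ⊔ BQ 3 θ (R.deg 0) T 3 s := fun hx => by
  obtain ⟨h1, h2, h3, h4⟩ := H.bn hc
  obtain ⟨h5, h4⟩ := grd_spec h4
  obtain ⟨u, p, h7, h8, h9⟩ := h.exa (H.cx.ok s) h4
  obtain ⟨l', φ, h10, h11, h12⟩ := run_gen (H.cx.ok s) hl h9
  obtain ⟨z, h6, e, he, rfl⟩ := mem_sup.1 hx
  obtain ⟨u', hu, h13⟩ := h11 h6
  refine H.wd.ne h3 h1.le (h7.sub h13) le_rfl (j_le h5) (fun h14 => H.noL h1.le h2 h5 h10 h8 h12 ?_)
    (by simpa using he)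
  exact sub_add_cancel u u' ▸ add_mem (mem_sup_right (mI_top.symm ▸ h14)) (mem_sup_left hu)

theorem neJ (h : CVJ R θ E ix s x v) (hc : v.no E s T [(0, 0)] c2 [] = true) :
    x ∉ BQ 3 θ (R.deg 0) T 3 s := fun hx => h.notJ H .nil hc (mem_sup_right hx)

/-- **non-vanishing from the sources of differentials** -/
theorem neD {x : G 0 → Cob Laz (s + 1)} (h : CVJ R θ E ix (s + 1) x v)
    (hd : HD R θ s T [(0, 0)] n m n') (h0 : Le n' c2 = true)
    (hc : v.nd E (s + 1) T c c' n m c2 = true) : x ∉ BQ 3 θ (R.deg 0) T 3 (s + 1) := fun hx => by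
  obtain ⟨h1, h2, h3, h4⟩ := H.bn hc
  obtain ⟨h5, h4⟩ := grd_spec h4
  obtain ⟨h5, h5'⟩ := grd_spec h5
  obtain ⟨h6, h4⟩ := grd_spec h4
  obtain ⟨h6, h6'⟩ := grd_spec h6
  obtain ⟨h7, h4⟩ := grd_spec h4
  obtain ⟨u, p, h8, h9, h10⟩ := h.exa (H.cx.ok _) h4
  obtain ⟨h11, h12⟩ := grd_spec h10
  exact H.cx.noB h1.le (add_zero _).symm h2 h5' (H.cx.re h2 h5 h6' h7 h9) h12
    (H.wd.bd_of h3 (by omega) h8 (inv_mI _) (inv_mI n) (inv_mI m) (inv_mI c2) (Vis.mul h5)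
      (Le.mI h6) (Le.mI h6') (Le.mI h7) (Le.mI h0) (Vis.mul h5') (H.cx.isZ h2 h5 h6 h9 h11)
      (mI_top ▸ hd) hx)

end CVJ

theorem CLJ.ge (hl : CLJ R θ E ix 𝒵 l) (h : WJ.ge E s T c c1 cb c2 l = true) :
    s < E.Q ∧ (T : ℤ) ≤ E.T ∧ mI c * Jr K 3 ≤ mI c1 ∧ mI c ≤ mI cb ∧ mI cb * Jr K 3 ≤ mI c2 ∧
      R.CyJ s T (mI c) (mI c1) ≤ SpJ R θ (mI cb) (mI c2) T 𝒵 ⊔ R.BdJ s T (mI cb) (mI c2) := by
  obtain ⟨h1, h2, h3, h4⟩ := H.bn h
  obtain ⟨h5, h4⟩ := grd_spec h4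
  obtain ⟨h6, h4⟩ := grd_spec h4
  obtain ⟨h7, h4⟩ := grd_spec h4
  obtain ⟨l', φ, h8, h9, h10⟩ := hl.runW (H.cx.ok s) h4
  exact ⟨h1, h3, Vis.mul h5, Le.mI h6, Vis.mul h7,
    H.cx.gen h1 (add_zero _).symm h2 h5 h6 h7 h8 h9 h10⟩

/-- **generators** -/
theorem CLJ.hg (c1 cb : Cs) (hl : CLJ R θ E ix 𝒵 l) (hc : WJ.ge E s T c c1 cb c2 l = true)
    (h : HG R θ T c2 𝒵) : HG R θ T c 𝒵 := by
  obtain ⟨h1, h2, h3, h4, h5, h6⟩ := hl.ge H hc
  exact H.wd.hx_step h2 h1 H.wd.xsZ (inv_mI _) (inv_mI _) (inv_mI _) (inv_mI _) h4 h3 bot_le h5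
    bot_le (WdJ.bf_bq.trans le_sup_right) (h6.trans (sup_le_sup_right (SpJ_le
      (inf_le_inf_right _ le_sup_left) (le_inf le_sup_right H.wd.bz)) _)) h

/-- improving the precision modulo computed classes -/
theorem CLJ.ext (c1 : Cs) (hl : CLJ R θ E ix 𝒵 l) (h : RL R θ ix s T c c' x μ)
    (h1 : E.cy s T c c1 μ = true) (h2 : WJ.ge E s T c' c1 c c2 l = true) :
    ∃ z ∈ 𝒵, RL R θ ix s T c c2 (x - z) μ := by
  have h3 := H.cy h1
  obtain ⟨_, ⟨z, hz, h4⟩, h5⟩ := H.wd.ext h3.2.1 h3.1 h (inv_mI _) (inv_mI _) (Vis.mul h3.2.2.1)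
    h3.2.2.2 (hl.ge H h2).2.2.2.2.2
  exact ⟨z, hz, by simpa using h5.sub h4⟩

end Vale.Agent.P236JT

end
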