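import Vale.Agent.P236JT.Lo

/-!
# P236JT / Lf : statements about linear families of computed classes
-/

noncomputable section

namespace Vale.Agent.P236JT

open Vale.Agent.P251.F Vale.Agent.P251.I Vale.Agent.P236SY Vale.Agent.P236R MvPolynomial
open Vale.Agent.P236EL Vale.Agent.P236KE Vale.Agent.P236K2 Vale.Agent.P236K3 Vale.Agent.P236F
open Vale.Agent.P236J3 Vale.Agent.P236JF Vale.Agent.P236JX AddSubgroup

namespace WJ

variable (E : JD) (s T : Nat) (c c' : Cs) (o : List Tr → WJ)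

/-- the bounds and the window -/
def lf0 (b : Bool) : Bool := E.bn s T (grd (Vis c c') (exa (E.D.L s) T c c' (o []) fun _ => b))
def lf1 (ls : List (List Tr)) (l : List VC) : Bool :=
  ls.all fun m => exa (E.D.L s) T c c' (o m) fun p => E.D.inJ s T c c' l (cst' p)
/-- all images lie in the span of the values -/
def lfM (ls : List (List Tr)) (l : List WJ) : Bool :=
  lf0 E s T c c' o (runW (E.D.L s) T c c' l (lf1 E s T c c' o ls))
/-- all images lie in the span of the lists -/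
def lfL (ls ls' : List (List Tr)) : Bool :=
  lf0 E s T c c' o (grd (E.oks s T c ls') (lf1 E s T c c' o ls (E.vcs s c' ls')))
/-- independence modulo a list -/
def ind (l vs : List VC) : Bool := List.rec (motive := fun _ => Bool) true
  (fun v vs ih => grd (E.noL s T c c' (List.append vs l) v) ih) vs
def lf2 (ks ls : List (List Tr)) (l : List VC) : Bool := runW (E.D.L s) T c c' (ks.map o) fun k =>
  runW (E.D.L s) T c c' (ls.map o) (ind E s T c c' (List.append k l))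
/-- the images of `ls` are independent modulo the images of `ks` and the values -/
def lfK (ks ls : List (List Tr)) (l : List WJ) : Bool :=
  lf0 E s T c c' o (runW (E.D.L s) T c c' l (lf2 E s T c c' o ks ls))
/-- the same modulo lists -/
def lfN (ks ls ls' : List (List Tr)) : Bool :=
  lf0 E s T c c' o (grd (E.oks s T c ls') (lf2 E s T c c' o ks ls (E.vcs s c' ls')))

end WJ

variable [hp : Fact (Nat.Prime 3)] {G : ℕ → Type} [∀ q, Fintype (G q)]
  {X₀ W : Type} {S : X₀ → (W → A) → Prop} {i₀ : W → ℕ} {R : Rs 3 K G}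
  {θ : G 0 → G 0 → Cob Laz 1} {E : JD} {ix : ∀ q, G (q + 1) → ℕ} {s T : ℕ} {c c' : Cs}
  {F : X₀ → G 0 → Cob Laz s} {o : List Tr → WJ} {f : (W → A) →+ G (s + 1) → A} {v : WJ}
  {u w : W → A} {ks ls ls' : List (List Tr)} {l : List WJ} {𝒵 : AddSubgroup (G 0 → Cob Laz s)}
  {zs : List (G 0 → Cob Laz s)} {x : X₀} {l' : List VC} {φ : List (G (s + 1) → A)}

theorem fp_exa (hL : (E.D.L s).Ok (ix s)) (h : v.Ok (FP S R θ E ix s f F u)) {κ : P → Bool}
    (hc : WJ.exa (E.D.L s) T c c' v κ = true) :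
    (∀ x w, S x w → RcJ R θ s T (mI c) (mI c') (F x) (f w)) ∧
      ∃ p, VRJ (E.D.L s) (ix s) T c c' (cst' p) (f u) ∧ κ p = true := by
  obtain ⟨T', d, d', p', ⟨h2, h1⟩, h3⟩ := h _ hc
  obtain ⟨h4, h5⟩ := grd_spec h3
  obtain ⟨h6, h7⟩ := grd_spec h5
  obtain ⟨h8, h9⟩ := grd_spec h7
  obtain rfl := Nat.eq_of_beq_eq_true h4
  have h10 := h2.cut hL h6 h8
  obtain ⟨p, h11, h12⟩ := h10.run _ h9
  exact ⟨fun x w h => (h1 x w h).mono (Le.mI h6) (Le.mI h8), p,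
    ⟨h10.hz, fun _ hk => ⟨p, h11, hk⟩⟩, h12⟩

theorem fp_run (hL : (E.D.L s).Ok (ix s)) (h : ∀ m, (o m).Ok (FP S R θ E ix s f F (vL i₀ m)))
    {κ : List VC → Bool} (hc : WJ.runW (E.D.L s) T c c' (ls.map o) κ = true) :
    ∃ l', List.Forall₂ (VRJ (E.D.L s) (ix s) T c c') l' (ls.map fun m => f (vL i₀ m)) ∧
      κ l' = true := by
  induction ls generalizing κ with
  | nil => exact ⟨[], .nil, hc⟩
  | cons m ls ih =>
    obtain ⟨-, p, h4, h5⟩ := fp_exa hL (h m) hc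
    obtain ⟨l', h6, h7⟩ := ih h5
    exact ⟨_, .cons h4 h6, h7⟩

omit [∀ q, Fintype (G q)] in
theorem cl_right (ψ : List (G (s + 1) → A)) :
    closure {z | z ∈ φ} ≤ closure {z | z ∈ List.append ψ φ} :=
  AddSubgroup.closure_mono fun _ h => List.mem_append_right _ h

omit [∀ q, Fintype (G q)] in
theorem map_spn (hu : u ∈ spn i₀ ls) (φ : List (G (s + 1) → A)) :
    f u ∈ closure {z | z ∈ List.append (ls.map fun m => f (vL i₀ m)) φ} :=
  spn_le (S := comap f (closure {z | z ∈ List.append (ls.map fun m => f (vL i₀ m)) φ}))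
    (fun _ hm => AddSubgroup.subset_closure (List.mem_append_left _ (List.mem_map_of_mem hm))) hu

variable [DecidableEq (G 0)] {Tm s3 s4 : ℕ} (H : WxJ R θ E ix Tm s3 s4)

include H

theorem ind_spec (hs : s ≤ E.Q) (hT : T ≤ Tm) (hV : Vis c c' = true) {vs : List VC}
    (hl : List.Forall₂ (VRJ (E.D.L s) (ix s) T c c') l' φ)
    (hv : List.Forall₂ (VRJ (E.D.L s) (ix s) T c c') vs (ls.map fun m => f (vL i₀ m)))
    (hc : WJ.ind E s T c c' l' vs = true) (hu : u ∈ spn i₀ ls)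
    (hb : f u ∈ closure {z | z ∈ φ} ⊔ R.BdJ s T (mI c) (mI c')) : u = 0 := by
  induction ls generalizing vs with
  | nil => exact mem_bot.1 hu
  | cons m ls ih =>
    obtain _ | ⟨h0, hv⟩ := hv
    obtain ⟨h1, h2⟩ := grd_spec hc
    have h3 := H.noL hs hT hV (List.rel_append hv hl) h0 h1
    have h4 := sup_le_sup_right (cl_right (ls.map fun m => f (vL i₀ m))) _ hb
    obtain ⟨z, hz, rfl | rfl | rfl⟩ := spn_cons hu
    · exact ih hv h2 hz
    · exact (h3 (by simpa using sub_mem h4 (mem_sup_left (map_spn hz φ)))).elim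
    · refine (h3 ?_).elim
      have h5 := nsmul_mem (sub_mem h4 (mem_sup_left (map_spn hz φ))) 2
      have h6 : (3 : ℕ) • f (vL i₀ m) = 0 := funext fun g => by
        rw [Pi.smul_apply, nsmul_eq_mul]
        exact mul_eq_zero_of_left (CharP.cast_eq_zero A 3) _
      rwa [map_add, add_sub_cancel_right, vL_twL, map_nsmul, ← mul_nsmul',
        show 2 * 2 = 3 + 1 from rfl, add_nsmul, h6, zero_add, one_nsmul] at h5

section

variable (h : ∀ m, (o m).Ok (FP S R θ E ix s f F (vL i₀ m)))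

include h

theorem lf0_spec {b : Bool} (hc : WJ.lf0 E s T c c' o b = true) : s < E.Q ∧ T ≤ Tm ∧
    (T : ℤ) ≤ E.T ∧ Vis c c' = true ∧ (∀ x w, S x w → RcJ R θ s T (mI c) (mI c') (F x) (f w)) ∧
      b = true := by
  obtain ⟨h1, h2, h3, h4⟩ := H.bn hc
  obtain ⟨h5, h4⟩ := grd_spec h4
  obtain ⟨h6, _, -, h7⟩ := fp_exa (H.cx.ok s) (h []) h4
  exact ⟨h1, h2, h3, h5, h6, h7⟩

theorem lf1_spec (hs : s ≤ E.Q) (hT : T ≤ Tm) (hV : Vis c c' = true)
    {𝒮 : AddSubgroup (G (s + 1) → A)} (hl : List.Forall₂ (VRJ (E.D.L s) (ix s) T c c') l' φ)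
    (hS : ∀ z ∈ φ, z ∈ 𝒮) (hc : WJ.lf1 E s T c c' o ls l' = true) (hw : w ∈ spn i₀ ls) :
    f w ∈ 𝒮 ⊔ R.BdJ s T (mI c) (mI c') :=
  spn_le (S := comap f (𝒮 ⊔ R.BdJ s T (mI c) (mI c'))) (fun m hm => by
    obtain ⟨-, p, h1, h2⟩ := fp_exa (H.cx.ok s) (h m) (List.all_eq_true.1 hc m hm)
    exact H.cx.inB hs (add_zero _).symm hT hV hl hS h1 h2) hw

theorem lf2_spec (hs : s ≤ E.Q) (hT : T ≤ Tm) (hV : Vis c c' = true)
    (hl : List.Forall₂ (VRJ (E.D.L s) (ix s) T c c') l' φ)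
    (hc : WJ.lf2 E s T c c' o ks ls l' = true) (hw : w ∈ spn i₀ ks ⊔ spn i₀ ls)
    (hb : f w ∈ closure {z | z ∈ φ} ⊔ R.BdJ s T (mI c) (mI c')) : w ∈ spn i₀ ks := by
  obtain ⟨k, h1, h2⟩ := fp_run (H.cx.ok s) h hc
  obtain ⟨vs, h3, h4⟩ := fp_run (H.cx.ok s) h h2
  obtain ⟨a, ha, b, hb', rfl⟩ := mem_sup.1 hw
  rwa [ind_spec H hs hT hV (List.rel_append h1 hl) h3 h4 hb' (by
    simpa using sub_mem (sup_le_sup_right (cl_right (ks.map fun m => f (vL i₀ m))) _ hb) (mem_sup_left (map_spn ha φ))), add_zero]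

end

namespace LF

variable (h : LF S i₀ R θ E ix s F o)

include h

/-- **the images lie in the span of computed classes, modulo higher filtration** -/
theorem rcM (hl : CLJ R θ E ix 𝒵 l) (hc : WJ.lfM E s T c c' o ls l = true) (hx : S x w)
    (hw : w ∈ spn i₀ ls) : ∃ z ∈ 𝒵, RL R θ ix s T c c' (F x - z) [] := by
  obtain ⟨f, h⟩ := h
  obtain ⟨h1, h2, -, h4, h5, h6⟩ := lf0_spec H h hc
  obtain ⟨l', φ, h7, h8, h9⟩ := hl.runW (H.cx.ok s) h6
  obtain ⟨a, ⟨z, hz, h10⟩, e, he, h11⟩ := mem_sup.1 (lf1_spec H h h1.le h2 h4 h7 h8 h9 hw)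
  exact ⟨z, hz, ((h5 x w hx).sub h10).congr (u' := 0) (by
    rwa [← h11, sub_zero, add_sub_cancel_left])⟩

/-- **membership** -/
theorem mem (hl : CLJ R θ E ix 𝒵 l) (hg : HG R θ T c' 𝒵) (hc : WJ.lfM E s T c c' o ls l = true)
    (hx : S x w) (hw : w ∈ spn i₀ ls) : F x ∈ 𝒵 ⊔ BQ 3 θ (R.deg 0) T 3 s := by
  obtain ⟨z, hz, h1⟩ := h.rcM H hl hc hx hw
  obtain ⟨h2, -, h3, h4⟩ := H.bn hc
  simpa using add_mem (H.wd.mem h3 h2.le h1 (inv_mI _) (inv_mI _) (Vis.mul (grd_spec h4).1)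
    (zero_mem _) hg) (mem_sup_left hz)

theorem memB (hg : HG R θ T c' (⊥ : AddSubgroup (G 0 → Cob Laz s)))
    (hc : WJ.lfM E s T c c' o ls [] = true) (hx : S x w) (hw : w ∈ spn i₀ ls) :
    F x ∈ BQ 3 θ (R.deg 0) T 3 s := by simpa using h.mem H .nil hg hc hx hw

/-- **the images are represented by the span of lists** -/
theorem mL (hc : WJ.lfL E s T c c' o ls ls' = true) (hx : S x w) (hw : w ∈ spn i₀ ls) :
    F x ∈ LdJ R θ T (mI c) (mI c') (spn (ix s) ls') := by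
  obtain ⟨f, h⟩ := h
  obtain ⟨h1, h2, -, h4, h5, h6⟩ := lf0_spec H h hc
  obtain ⟨h7, h8⟩ := grd_spec h6
  obtain ⟨a, ha, e, he, h9⟩ :=
    mem_sup.1 (lf1_spec H h h1.le h2 h4 (H.vrs h7) WxJ.mem_map h8 hw)
  exact ⟨a, ha, (h5 x w hx).congr (by rwa [← h9, add_sub_cancel_left])⟩

/-- **the kernel modulo computed classes** -/
theorem ker (hl : List.Forall₂ (CVJ R θ E ix s) zs l)
    (hc : WJ.lfK E s T [(0, 0)] c' o ks ls l = true) (hx : S x w)
    (hw : w ∈ spn i₀ ks ⊔ spn i₀ ls) (hF : F x ∈ closure {z | z ∈ zs} ⊔ BQ 3 θ (R.deg 0) T 3 s) :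
    w ∈ spn i₀ ks := by
  obtain ⟨f, h⟩ := h
  obtain ⟨h1, h2, h3, h4, h5, h6⟩ := lf0_spec H h hc
  obtain ⟨l', φ, h7, h8, h9⟩ := run_gen (H.cx.ok s) hl h6
  obtain ⟨z, hz, e, he, h10⟩ := mem_sup.1 hF
  obtain ⟨a, ha, h11⟩ := h8 hz
  refine lf2_spec H h h1.le h2 h4 h7 h9 hw (by_contra fun h12 => H.wd.ne h3 h1.le
    ((h5 x w hx).sub h11) le_rfl (j_le h4) (fun h13 => h12 ?_) (by
      rwa [← h10, add_sub_cancel_left]))
  exact sub_add_cancel (f w) a ▸ add_mem (mem_sup_right (mI_top.symm ▸ h13)) (mem_sup_left ha)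

/-- **the kernel modulo classes which are represented by lists** -/
theorem kerL (hz : 𝒵 ≤ LdJ R θ T (mI [(0, 0)]) (mI c') (spn (ix s) ls'))
    (hc : WJ.lfN E s T [(0, 0)] c' o ks ls ls' = true) (hx : S x w)
    (hw : w ∈ spn i₀ ks ⊔ spn i₀ ls) (hF : F x ∈ 𝒵 ⊔ BQ 3 θ (R.deg 0) T 3 s) :
    w ∈ spn i₀ ks := by
  obtain ⟨f, h⟩ := h
  obtain ⟨h1, h2, h3, h4, h5, h6⟩ := lf0_spec H h hc
  obtain ⟨h7, h9⟩ := grd_spec h6
  obtain ⟨z, hz', e, he, h10⟩ := mem_sup.1 hF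
  obtain ⟨a, ha, h11⟩ := hz hz'
  refine lf2_spec H h h1.le h2 h4 (H.vrs h7) h9 hw (by_contra fun h12 => H.wd.ne h3 h1.le
    ((h5 x w hx).sub h11) le_rfl (j_le h4) (fun h13 => h12 ?_) (by
      rwa [← h10, add_sub_cancel_left]))
  exact sub_add_cancel (f w) a ▸ add_mem (mem_sup_right (mI_top.symm ▸ h13)) (mem_sup_left
    (spn_le (fun m hm => subset_closure (List.mem_map_of_mem hm)) ha))

/-- **injectivity** -/
theorem inj (hc : WJ.lfK E s T [(0, 0)] c' o [] ls [] = true) (hw : w ∈ spn i₀ ls) :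
    w = 0 ∨ ∀ x, S x w → F x ∉ BQ 3 θ (R.deg 0) T 3 s :=
  or_iff_not_imp_left.2 fun h1 _ hx hF =>
    h1 (mem_bot.1 (h.ker H .nil hc hx (mem_sup_right hw) (mem_sup_right hF)))

end LF

end Vale.Agent.P236JT

end
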