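import Vale.Agent.P236JT.F34
import Vale.Agent.P236JG.Base

/-!
# P236JT / F35 : the products with `β v_1` in stem 343
-/

noncomputable section

namespace Vale.Agent.P236JT

open Vale.Agent.P251.F Vale.Agent.P251.I Vale.Agent.P236SY Vale.Agent.P236R
open Vale.Agent.P236EL Vale.Agent.P236KE Vale.Agent.P236K3 Vale.Agent.P236F Vale.Agent.P236KE.S90
open Vale.Agent.P236J3 Vale.Agent.P236JF Vale.Agent.P236JX Vale.Agent.P236JG AddSubgroup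

variable [Fact (Nat.Prime 3)] {t : Cob Laz 1}

theorem exS (h : HK) {s T : ℕ} {c c' m n : Cs} {μ : List Tr} (hc : eJ.clF s T c c' m μ = true)
    (h1 : Le n c = true) (h3 : Le m n = true) (h4 : HT jS 0 (s + 1) T c' n []) :
    ∃ x, RL jS 0 iS s T c n x μ :=
  (wxS h).exC ((wxS h).exN c' n m ((wxS h).clF_eq ▸ hc) h1 (Le.refl _) h3 h4)

theorem c343 (h : HK) (ht : IsT1 3 t) {x c} (hx : Grk 0 5 x c) : ∀ N ∈ ZS 84 7, ∃ H ∈ ZS 82 5,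
    ∃ K ∈ ZS 69 8, lb t 7 (show 2 + 7 = 9 from rfl) (lc _ (show 0 + 7 = 7 from rfl) v1 N) -
      (lb t 7 (show 2 + 7 = 9 from rfl) (lb t 5 (show 2 + 5 = 7 from rfl) H) +
        lc _ (show 1 + 8 = 9 from rfl) x K) ∈ BS 88 9 := fun N hN => by
  have H := wxS h
  have a := x322
  have b := x267
  have d := x343
  have e := y343
  simp only [Bool.and_eq_true] at a b d e
  have t1 : HT jS 0 6 82 [(3, 17)] [(0, 15)] [] :=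
    (htCh H (m := [(0, 15)]) (n := []) a.1.2 rfl (H.htEm a.2 rfl rfl) :)
  obtain ⟨p, hp⟩ := exS h (n := [(0, 6), (2, 4)]) a.1.1.1.1 rfl rfl
    (htCh H (m := [(0, 6), (2, 4)]) (n := []) a.1.1.2 rfl (t1.mono rfl rfl rfl) :)
  obtain ⟨q, hq⟩ := exS h a.1.1.1.2 rfl rfl t1
  obtain ⟨k, hk⟩ := exS h (n := [(0, 7)]) b.1.1 rfl rfl
    (htCh H (m := [(0, 7)]) (n := []) b.1.2 rfl (H.htEm b.2 rfl rfl) :)
  let 𝒵 := (ZS 82 5).map ((lb t 7 (show 2 + 7 = 9 from rfl)).comp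
    (lb t 5 (show 2 + 5 = 7 from rfl))) ⊔ (ZS 69 8).map (lc _ (show 1 + 8 = 9 from rfl) x)
  have l1 : CLJ jS 0 eJ iS 𝒵 [w1] := .cons (mem_sup_left ⟨p, hp.zc, rfl⟩)
    (((cv_nm (H.cx.ok 5) hp).bm H ht rfl).bm H ht rfl) .nil
  have l3 : CLJ jS 0 eJ iS 𝒵 [w3'] := .cons (mem_sup_left ⟨q, hq.zc, rfl⟩)
    (((cv_nm (H.cx.ok 5) hq).bm H ht rfl).bm H ht rfl) .nil
  have l2 : CLJ jS 0 eJ iS 𝒵 [w2] := .cons (mem_sup_right ⟨k, hk.zc, rfl⟩)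
    ((cv_nm (H.cx.ok 8) hk).gm H hx rfl) .nil
  have g1 : HG jS 0 88 [(3, 4)] 𝒵 := (hgCh H d.1 (H.hgEm (𝒵 := 𝒵) d.2) :)
  have g2 : HG jS 0 88 [(0, 15), (3, 4)] 𝒵 := (hgCh H e.1.1.2 g1 :)
  have g : HG jS 0 88 [(0, 6), (2, 4)] 𝒵 :=
    (hgCh H e.1.1.1 (l2.hg H _ _ e.1.2 (l3.hg H _ _ e.2 g2)) :)
  obtain ⟨u, hu, h1⟩ := rep0 H x329 hN
  obtain ⟨_, h2, y, hy, h3⟩ := mem_sup.1 ((((lf_nm (H.cx.ok 7) 84 [(0, 0)] [(3, 3)]).v1 H ht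
    (show 0 + 7 = 7 from rfl)).bm H ht (show 2 + 7 = 9 from rfl)).mem H l1 g z343 h1 hu)
  obtain ⟨_, ⟨A, hA, rfl⟩, _, ⟨B, hB, rfl⟩, rfl⟩ := mem_sup.1 h2
  exact ⟨A, hA, B, hB, (congrArg (· ∈ BS 88 9) (eq_sub_of_add_eq' h3)).mp hy⟩

end Vale.Agent.P236JT

end
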