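import Vale.Agent.P236JX.Cls

/-!
# P236JT / Lc : products, cellular maps and connecting maps in general windows
-/

noncomputable section

namespace Vale.Agent.P236JT

open Vale.Agent.P251.F Vale.Agent.P251.F.F3 Vale.Agent.P257.H80 LawRing MvPolynomial
open Vale.Agent.P251.I Vale.Agent.P236SY Vale.Agent.P236F Vale.Agent.P236R AddSubgroup
open Vale.Agent.P236EL Vale.Agent.P236EL.Ch Vale.Agent.P236EL.Rs

variable [hp : Fact (Nat.Prime 3)] {G G' : ℕ → Type} [∀ q, Fintype (G q)] [∀ q, Fintype (G' q)]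
  {R : Rs 3 (ZMod 3) G} {R' : Rs 3 (ZMod 3) G'} {θ : G 0 → G 0 → Cob Laz 1}
  {θ' : G' 0 → G' 0 → Cob Laz 1} {s m n k f Q : ℕ} {w w' ω T : ℤ} {x : G 0 → Cob Laz s}
  {u : G (s + 1) → AA (ZMod 3)} {J K K' M : Ideal (AA (ZMod 3))}

theorem star_bd (h : R.OkJ (RingHom.id _) J n T) (hw : ω + w ≤ T) (e : m + s = n) (hK : Inv 3 K)
    (hK' : Inv 3 K') (hM : Inv 3 M) (hKK : K * J ≤ K') {c : CC (ZMod 3)} (h1 : c ∈ Loc 3 _ m)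
    (h2 : c ∈ WC 3 _ ω) (h3 : c ∈ Fil 3 M) (h4 : alt 3 _ (m + 2) c ∈ Fil 3 ⊥)
    (hu : u ∈ R.BdJ s w K K') :
    R.star m (s + 1) (n + 1) (by omega) c u ∈ R.BdJ n (ω + w) (M * K) (M * K') := by
  obtain ⟨y, hy, h5⟩ := mem_BdJ.1 hu
  rw [← sub_add_cancel u (R.sd s y), map_add]
  refine add_mem (mem_BdJ_of_ZA (R.star_mem_ZA hM hK' _ _ _ _ h3 h5)) ?_
  rcases s with _ | s
  · rw [show R.sd 0 y = 0 from rfl, map_zero]
    exact zero_mem _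
  have h6 := star_leibniz h.inv h.k1 hw hK hM (show s + 1 + m = n by omega) h1 h2 h3 hy
  have h7 := R.star_mem_ZA inv_bot hK (m + 1) (s + 1) (n + 1) (by omega) h4 fun i => (hy i).2
  refine mem_BdJ.2 ⟨_, zsmul_mem (star_mem_PA hK hM (show s + 1 + m = n by omega) h1 h2 h3 hy)
    ((-1 : ℤ) ^ m), ?_⟩
  have h8 : M * K * J ≤ M * K' := by
    rw [mul_assoc]
    exact Ideal.mul_mono_right hKK
  have h10 : ⊥ * K ≤ M * K' := by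
    rw [Ideal.bot_mul]
    exact bot_le
  have h9 := zsmul_mem (sub_mem (ZA_mono h8 h6) (ZA_mono h10 h7)) ((-1 : ℤ) ^ m)
  rwa [sub_right_comm, add_sub_cancel_left, smul_sub, neg_one_smul_smul, ← map_zsmul] at h9

theorem hm_bd {g : ∀ q, G q → G' q → ℤ} (h : Hm R R' g ω) (hu : u ∈ R.BdJ s w K K') :
    zm _ (g (s + 1)) u ∈ R'.BdJ s (w + ω) K K' := by
  obtain ⟨y, hy, h1⟩ := mem_BdJ.1 hu
  exact mem_BdJ.2 ⟨_, zm_mem_PA (h.dg s) hy, by rw [h.sd, ← map_sub]; exact zm_mem_ZA _ h1⟩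

/-- cellular maps -/
theorem rc_zm {g : ∀ q, G q → G' q → ℤ} (hf : Hm R R' g ω)
    (hθ : ∀ c k', ∑ k, g 0 c k • θ' k k' = ∑ c', g 0 c' k' • θ c c')
    (h : RcJ R θ s w K K' x u) :
    RcJ R' θ' s (w + ω) K K' (zm _ (g 0) x) (zm _ (g (s + 1)) u) :=
  h.map _ (zm_mem_ZC hθ (hf.dg 0) h.zc) (fun _ => zm_mem_BQ hθ (hf.dg 0)) fun _ _ h =>
    ⟨zm_mem_CW (hf.dg 0) h.cw, zm_mem_Fl _ h.fl, by rw [hf.Ph, ← map_sub]; exact hm_bd hf h.bd⟩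

variable [DecidableEq (G 0)]

section lc

variable (H : WdJ R θ J Q T) (hK : Inv 3 K) (hK' : Inv 3 K') (hKK : K * J ≤ K') (hw : w' ≤ T)

include H hK hK' hKK hw

/-- the product with a cocycle -/
theorem rc_lc (hn : n ≤ Q) {z : Cob Laz m} (hz : (fun _ => z) ∈ ZS ω m) (hM : Inv 3 M)
    (hj : rs p3 m z ∈ Fil 3 M) (e : ω + w = w') (e' : m + s = n) (h : RcJ R θ s w K K' x u) :
    RcJ R θ n w' (M * K) (M * K') (lc _ e' z x)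
      (R.star m (s + 1) (n + 1) (by omega) (rs p3 m z) u) :=
  h.map _ (lcZ H.mc e' hz e h.zc) (fun _ => lcB H.mc e' hz e) fun _ _ h => by
    subst e
    refine ⟨lc_mem_CW e' (zs_iff.1 hz).1 h.cw, lc_mem_Fl e' hK hj h.fl, ?_⟩
    rw [Ph_lc e' z h.cw, ← map_sub]
    exact star_bd (H.ok' hn) hw e' hK hK' hM hKK (rs_mem_Loc p3 m z) (rs_mem_WC p3 (zs_iff.1 hz).1)
      hj (rs_d p3 m z ▸ rs_of_dvd (zs_iff.1 hz).2 _) h.bd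

theorem rc_lc0 (hn : n ≤ Q) {z : Cob Laz m} (hz : (fun _ => z) ∈ ZS ω m) (e : ω + w = w')
    (e' : m + s = n) (h : RcJ R θ s w K K' x u) : RcJ R θ n w' K K' (lc _ e' z x)
      (R.star m (s + 1) (n + 1) (by omega) (rs p3 m z) u) := by
  have h1 := rc_lc H hK hK' hKK hw hn hz inv_top (by rw [Fil_top]; trivial) e e' h
  rwa [Ideal.top_mul, Ideal.top_mul] at h1

variable {t : Cob Laz 1}

theorem rc_tm (ht : IsT1 3 t) (hs : s < Q) (hz : (fun _ => t ^ k) ∈ ZS ω 1) (e : ω + w = w')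
    (e' : 1 + s = s + 1) (h : RcJ R θ s w K K' x u) :
    RcJ R θ (s + 1) w' K K' (lc _ e' (t ^ k) x) (R.tm s k u) := by
  have h1 := rc_lc0 H hK hK' hKK hw hs hz e e' h
  have h2 : rs p3 1 (t ^ k) = (univ _).arr 3 0 (X 0 ^ k) := by
    rw [map_pow, rs_t1 p3 rfl ht, map_pow]
  rwa [h2, Rs.star_arr] at h1

theorem rc_vm (ht : IsT1 3 t) (hs : s ≤ Q) (e : k + w = w') (e' : 0 + s = s)
    (hv : Inv 3 (Ideal.span {(X 0 ^ k : AA (ZMod 3))})) (h : RcJ R θ s w K K' x u) :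
    RcJ R θ s w' (Ideal.span {X 0 ^ k} * K) (Ideal.span {X 0 ^ k} * K') (lc _ e' (v1 ^ k) x)
      ((X 0 ^ k : AA (ZMod 3)) • u) := by
  have h0 : rs p3 0 (v1 ^ k) = (univ _).pt 3 0 (X 0 ^ k) := by
    rw [map_pow, v1, rs_v1 p3 rfl, map_pow]
  have h1 := rc_lc H hK hK' hKK hw hs (zs_v ht k) hv
    (h0 ▸ Ideal.mem_map_of_mem _ (Ideal.mem_span_singleton_self _)) e e' h
  rwa [h0, Rs.star_pt] at h1

theorem rc_bm (ht : IsT1 3 t) (hs : s + 2 ≤ Q) (e : 3 + w = w') (e' : 2 + s = s + 2)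
    (h : RcJ R θ s w K K' x u) : RcJ R θ (s + 2) w' K K' (lc _ e' (bb t) x) (R.bm s 1 u) := by
  have h1 := rc_lc0 H hK hK' hKK hw hs (zs_bb ht) e e' h
  have h2 : rs p3 2 (bb t) = (univ _).arr 3 0 (X 0 ^ (2 * 1)) * (univ _).arr 3 1 (X 0 ^ 1) +
      (univ _).arr 3 0 (X 0 ^ 1) * (univ _).arr 3 1 (X 0 ^ (2 * 1)) := by
    have h3 : (3 : CC (ZMod 3)) = 0 := by
      rw [← map_ofNat (C : ZMod 3 →+* _) 3]
      exact map_zero C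
    rw [bb, map_add, rs_cup p3 (a := 1) (b := 1), rs_cup p3 (a := 1) (b := 1)]
    simp only [map_mul, map_pow, map_ofNat, rs_t1 p3 rfl ht, sh_arr]
    linear_combination ((univ (ZMod 3)).arr 3 0 (X 0) ^ 2 * (univ (ZMod 3)).arr 3 1 (X 0) +
      (univ (ZMod 3)).arr 3 0 (X 0) * (univ (ZMod 3)).arr 3 1 (X 0) ^ 2) * h3
  rwa [h2, Rs.star_add, Rs.star_arr2, Rs.star_arr2] at h1

variable {z : Cob Laz 1} {c : Cob Laz 2}

theorem rc_gm (hz : Grk f k z c) (hs : s < Q) (e : 3 ^ f * (4 * k - 1) + w = w')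
    (e' : 1 + s = s + 1) (h : RcJ R θ s w K K' x u) :
    RcJ R θ (s + 1) w' (II 3 _ ^ (3 ^ f * (k - 1)) * K) (II 3 _ ^ (3 ^ f * (k - 1)) * K')
      (lc _ e' z x) (R.dl s (gF _ f k) u) := by
  have h1 := rc_lc H hK hK' hKK hw hs (hz.zx rfl) (inv_II.pow _) (hz.rx ▸ gF_lev f k) e e' h
  rwa [hz.rx, Rs.star_arr] at h1

theorem rc_bk (hz : Grk f k z c) (hs : s + 2 ≤ Q) (e : 3 ^ f * (4 * k - 1) + w = w')
    (e' : 2 + s = s + 2) (h : RcJ R θ s w K K' x u) :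
    RcJ R θ (s + 2) w' (II 3 _ ^ lv f k * K) (II 3 _ ^ lv f k * K') (lc _ e' c x)
      (R.star 2 (s + 1) (s + 3) rfl (hF _ f k) u) := by
  have h1 := rc_lc H hK hK' hKK hw hs (hz.zc rfl) (inv_II.pow _) (hz.rc ▸ hF_lev f k) e e' h
  rwa [hz.rc] at h1

end lc

variable {GA GB : ℕ → Type} [∀ q, Fintype (GA q)] [∀ q, Fintype (GB q)] {RA : Rs 3 (ZMod 3) GA}
  {RB : Rs 3 (ZMod 3) GB} {θ₁ : GA 0 → GA 0 → Cob Laz 1} {θ₂ : GB 0 → GB 0 → Cob Laz 1}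
  {i : ∀ q, GA q → G q → ℤ} {g : ∀ q, G q → GB q → ℤ} {ρ : ∀ q, G q → GA q → ℤ}
  {σ : ∀ q, GB q → G q → ℤ} {ω' : ℤ}

omit [DecidableEq (G 0)] in
theorem ses_lift (H : Ses RA R RB i g ρ σ ω ω') (hK : Inv 3 K) {y : G 0 → Cob Laz s}
    (hy : y ∈ CW 3 Laz (R.deg 0) w s) (hy' : y ∈ Fl p3 _ s K) {u : GB (s + 1) → AA (ZMod 3)}
    (h : RvJ p3 RB s (w + ω') K K' (zm _ (g 0) y) u) : ∃ v ∈ PA 3 (RA.deg (s + 1)) (w + -ω) K,
      RvJ p3 R s w K K' y (zm _ (σ (s + 1)) u + zm _ (i (s + 1)) v) := by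
  obtain ⟨v, hv, h1⟩ := mem_BdJ.1 h.bd
  have h2 := zm_mem_PA (H.hσ s) hv
  rw [add_neg_cancel_right] at h2
  refine ⟨_, zm_mem_PA (H.hρ _) (sub_mem (Ph_mem hK hy hy') (sd_mem_PA hK h2)), hy, hy',
    mem_BdJ.2 ⟨_, h2, ?_⟩⟩
  have h3 : zm _ (g (s + 1)) (R.sd s (zm _ (σ s) v)) = RB.sd s v := by
    rcases s with _ | s
    · exact map_zero _
    · rw [← H.hf.sd, H.fσ]
  have h4 := zm_mem_ZA (σ (s + 1)) h1
  rw [H.hf.Ph, ← h3, sub_right_comm, ← map_sub, map_sub, eq_sub_of_add_eq (H.sp s _)] at h4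
  rwa [sub_right_comm, ← sub_sub, sub_right_comm _ (zm _ (σ (s + 1)) u)]

/-- **the connecting map** -/
theorem rc_conn [DecidableEq (GB 0)] (W : WdJ R θ J Q T) (W₂ : WdJ RB θ₂ J Q T)
    (H : Ses RA R RB i g ρ σ ω ω') (H0 : S0 θ (ρ 0) (σ 0) θ₁ θ₂ (i 0) (g 0)) (hs : s < Q)
    (hw : w ≤ T) (hK : Inv 3 K) (hK' : Inv 3 K') (hKK : K * J ≤ K') {x : GB 0 → Cob Laz s}
    {u : GB (s + 1) → AA (ZMod 3)} (h : RcJ RB θ₂ s (w + ω') K K' x u) :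
    RcJ RA θ₁ (s + 1) (w + -ω) K K' (cn θ (ρ 0) (σ 0) s x)
      (zm _ (ρ (s + 2)) (R.sd (s + 1) (zm _ (σ (s + 1)) u))) := by
  have h1 : ∀ {s} {y : GB 0 → Cob Laz s}, y ∈ CW 3 Laz (RB.deg 0) (w + ω') s →
      zm _ (σ 0) y ∈ CW 3 Laz (R.deg 0) w s := fun hy => by simpa using zm_mem_CW (H.hσ 0) hy
  have h2 : ∀ {s} {y : GB 0 → Cob Laz s}, y ∈ CW 3 Laz (RB.deg 0) (w + ω') s →
      cn θ (ρ 0) (σ 0) s y ∈ CW 3 Laz (RA.deg 0) (w + -ω) (s + 1) := fun hy =>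
    zm_mem_CW (H.hρ 0) (DD_mem_CW W.ic.wt (h1 hy))
  have h3 : ∀ {s} {y : GB 0 → Cob Laz s}, y ∈ QW 3 Laz (RB.deg 0) (w + ω') 3 s →
      cn θ (ρ 0) (σ 0) s y ∈ QW 3 Laz (RA.deg 0) (w + -ω) 3 (s + 1) := by
    rintro _ _ ⟨y, hy, rfl⟩
    exact ⟨_, h2 hy, (map_nsmul _ _ _).symm⟩
  refine h.map _ ⟨h2 h.zc.1, ?_⟩ (fun y hy => ?_) fun y hy h4 => ?_
  · have h4 := neg_mem (h3 h.zc.2)
    rwa [H0.anti, map_neg, neg_neg] at h4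
  · obtain ⟨e, he, z, hz, rfl⟩ := mem_BQ.1 hy
    rw [map_add]
    refine add_mem (mem_sup_left ?_) (mem_sup_right (h3 ⟨z, hz, rfl⟩))
    rcases s with _ | s
    · rw [mem_bot.1 he, map_zero]
      exact zero_mem _
    · obtain ⟨y, hy', rfl⟩ := he
      exact ⟨_, neg_mem (h2 hy'), (H0.anti y).symm⟩
  · obtain ⟨v, hv, h5⟩ := ses_lift H hK (h1 h4.cw) (zm_mem_Fl _ h4.fl) (u := u) (K' := K')
      (by rwa [H0.fσ])
    refine ⟨h2 h4.cw, zm_mem_Fl _ (W.ic.DD_mem_Fl hK (zm_mem_Fl _ h4.fl)), mem_BdJ.2 ⟨v, hv, ?_⟩⟩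
    have hd : DD θ s (zm _ (σ 0) (x - y)) - zm _ (i 0) (cn θ (ρ 0) (σ 0) s (x - y)) ∈
        Fl p3 _ (s + 1) K' := by
      rw [H0.dd, add_sub_cancel_right]
      exact zm_mem_Fl _ (ZC_DD_Fl (sub_mem h.zc (W₂.bz hy)) _)
    have h6 := zm_mem_ZA (ρ (s + 2))
      (sub_mem (W.dd hw hs h5 hK hK' hKK) (Ph_mem_ZA (R := R) hK' hd))
    rw [map_sub (Ph p3 R _), sub_sub_sub_cancel_left, H.hi.Ph, map_add, H.hi.sd, map_sub, map_add,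
      H.ρi, H.ρi] at h6
    rwa [sub_sub]

end Vale.Agent.P236JT

end
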