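import Vale.Agent.P236JT.Wj
import Vale.Agent.P236JT.Lc
import Vale.Agent.P236JX.Lst

/-!
# P236JT / Cj : cohomology classes and the computation of their representatives, general windows
-/

noncomputable section

namespace Vale.Agent.P236JT

open Vale.Agent.P251.F Vale.Agent.P251.I Vale.Agent.P236SY Vale.Agent.P236R MvPolynomial
open Vale.Agent.P236EL Vale.Agent.P236KE Vale.Agent.P236K2 Vale.Agent.P236K3 Vale.Agent.P236F
open Vale.Agent.P236J3 Vale.Agent.P236JF Vale.Agent.P236JX AddSubgroup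

namespace WJ

def at' (T₀ : Nat) (v : WJ) : WJ := v.bind fun T c c' p => kp T c c' (Nat.beq T T₀) fun _ => cst' p
/-- the value in the window `c`, `c'` -/
def exa (L : LD) (T : Nat) (c c' : Cs) (v : WJ) (k : P → Bool) : Bool := v.run fun T' d d' p =>
  grd (Nat.beq T' T) (grd (Le d c) (grd (Le d' c') ((cut L T d d' c' p).run k)))
/-- the values of a list in the window `c`, `c'` -/
def runW (L : LD) (T : Nat) (c c' : Cs) (l : List WJ) : (List VC → Bool) → Bool :=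
  List.rec (motive := fun _ => (List VC → Bool) → Bool) (fun k => k [])
    (fun v _ ih k => exa L T c c' v fun p => ih fun l => k (cst' p :: l)) l

variable (E : JD) (Tm s : Nat)

/-- a list of terms -/
def nm (T : Nat) (c c' : Cs) (l : List Tr) : WJ := kp T c c' (grd (Nat.ble T (E.D.L s).T)
  (grd (Vis c c') (P236JX.okJ (E.D.L s) T c l))) fun _ => vcJ (E.D.L s) c' l
def op (ω ω' a b : Nat) (o : WJ → WJ) (v : WJ) : WJ := v.bind fun T c c' p =>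
  ⟨fun k => force (Nat.sub (Nat.add T ω) ω') fun T' =>
    grd (grd (Nat.ble s E.Q) (grd (Nat.ble ω' (Nat.add T ω)) (Nat.ble T' E.T)))
      ((fit (E.D.L s) T' (shC a b c) (shC a b c') (o (pure T c c' p))).run k)⟩
/-- a larger window -/
def wid (d d' : Cs) (v : WJ) : WJ := v.bind fun T c c' p => fit (E.D.L s) T d d' (pure T c c' p)
/-- a smaller window -/
def up (m : Cs) (v : WJ) : WJ := v.bind fun T c c' p => kp T m c' (E.bn s T (grd (Le m c)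
  (grd (Le c' m) (grd (Vis m c') (E.D.isZJ s T c m (cst' p)))))) fun _ => cst' p
def cvm (k : Nat) : WJ → WJ := op E s k 0 k k (mul Tm k k k 0)
def ctm (k : Nat) : WJ → WJ := op E (Nat.succ s) k 0 0 0 ((pr E.D E.Q Tm).tm s k)
def cbm : WJ → WJ := op E (Nat.succ (Nat.succ s)) 3 0 0 0 ((pr E.D E.Q Tm).bm s 1)
def cgm (n k : Nat) : WJ → WJ := op E (Nat.succ s) (Nat.mul n (Nat.add (Nat.mul 4 k) 3)) 0 0
  (Nat.mul n k) ((pr E.D E.Q Tm).gm s n k)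
def cb0 (k : Nat) : WJ → WJ := op E (Nat.succ (Nat.succ s)) (Nat.add (Nat.mul 4 k) 7) 0 0 k
  ((pr E.D E.Q Tm).b0 s k)
def cb1 (n k : Nat) : WJ → WJ := op E (Nat.succ (Nat.succ s))
  (Nat.mul (Nat.mul n 3) (Nat.add (Nat.mul 4 k) 7)) 0 0 (Nat.mul (Nat.mul n 3) (Nat.succ k))
  ((pr E.D E.Q Tm).b1 s n k)
def cb2 (n : Nat) : WJ → WJ := op E (Nat.succ (Nat.succ s)) (Nat.mul n 9) 0 0 0
  ((pr E.D E.Q Tm).b2 s n)

end WJ

theorem shC_zero (c : Cs) : shC 0 0 c = c := by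
  induction c with
  | nil => rfl
  | cons x c ih => exact congrArg (List.cons x) ih

variable [hp : Fact (Nat.Prime 3)] {G G' : ℕ → Type} [∀ q, Fintype (G q)] [∀ q, Fintype (G' q)]
  (R : Rs 3 K G) (θ : G 0 → G 0 → Cob Laz 1) (E : JD) (ix : ∀ q, G (q + 1) → ℕ)

/-- the value represents the class of `x` -/
def CPJ (s : ℕ) (x : G 0 → Cob Laz s) (T : ℕ) (c c' : Cs) (p : P) : Prop :=
  ∃ u, RcJ R θ s T (mI c) (mI c') x u ∧ WP (E.D.L s) (ix s) u T c c' p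

/-- the computation represents the class of `x` -/
def CVJ (s : ℕ) (x : G 0 → Cob Laz s) (v : WJ) : Prop := v.Ok (CPJ R θ E ix s x)

/-- the computations represent elements of `𝒵` -/
inductive CLJ {s : ℕ} (𝒵 : AddSubgroup (G 0 → Cob Laz s)) : List WJ → Prop
  | nil : CLJ 𝒵 []
  | cons {z v l} : z ∈ 𝒵 → CVJ R θ E ix s z v → CLJ 𝒵 l → CLJ 𝒵 (v :: l)

variable {R θ E ix} {s s' T k n : ℕ} {c c' : Cs} {x x' : G 0 → Cob Laz s} {v v' : WJ}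
  {𝒵 𝒵' : AddSubgroup (G 0 → Cob Laz s)} {l : List WJ}

theorem CLJ.mono (h : CLJ R θ E ix 𝒵 l) (h' : 𝒵 ≤ 𝒵') : CLJ R θ E ix 𝒵' l := by
  induction h with
  | nil => exact .nil
  | cons h1 h2 _ ih => exact .cons (h' h1) h2 ih

theorem CLJ.one (h : CVJ R θ E ix s x v) : CLJ R θ E ix (zmultiples x) [v] :=
  .cons (mem_zmultiples x) h .nil

theorem CLJ.two (h : CVJ R θ E ix s x v) (h' : CVJ R θ E ix s x' v') :
    CLJ R θ E ix (closure {x, x'}) [v, v'] :=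
  .cons (subset_closure (.inl rfl)) h (.cons (subset_closure (.inr rfl)) h' .nil)

namespace CVJ

theorem neg (h : CVJ R θ E ix s x v) : CVJ R θ E ix s (-x) v.neg :=
  WJ.Ok.bind h fun _ _ _ _ ⟨_, h1, h2⟩ => ok_kp fun _ =>
    (vo_of h2.vr.neg h2.hT h2.vis).mono fun _ h3 => ⟨_, h1.neg, h3⟩

theorem sm (a : ℕ) (h : CVJ R θ E ix s x v) : CVJ R θ E ix s (a • x) (v.sm a) :=
  WJ.Ok.bind h fun _ _ _ _ ⟨_, h1, h2⟩ => ok_kp fun _ =>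
    (vo_of (h2.vr.sm a) h2.hT h2.vis).mono fun _ h3 => ⟨_, h1.nsmul a, h3⟩

theorem cast (h : CVJ R θ E ix s x v) (e : x = x') : CVJ R θ E ix s x' v := e ▸ h

theorem share (h : CVJ R θ E ix s x v) {f : WJ → WJ} {Q : ℕ → Cs → Cs → P → Prop}
    (h' : ∀ v, CVJ R θ E ix s x v → (f v).Ok Q) : (v.share f).Ok Q :=
  WJ.Ok.bind h fun _ _ _ _ h1 => h' _ (WJ.ok_pure h1)

/-- operations on classes -/
theorem op {R' : Rs 3 K G'} {θ' : G' 0 → G' 0 → Cob Laz 1} {E' : JD} {ix' : ∀ q, G' (q + 1) → ℕ}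
    (hL : (E'.D.L s').Ok (ix' s')) {y : G' 0 → Cob Laz s'} {ω ω' a b : ℕ} {o : WJ → WJ}
    {f : (G (s + 1) → A) → G' (s' + 1) → A}
    (ho : OP (E.D.L s) (ix s) (E'.D.L s') (ix' s') o f)
    (hr : ∀ (T T' : ℕ) c c' u, s' ≤ E'.Q → (T' : ℤ) = T + ω - ω' → (T' : ℤ) ≤ E'.T →
      mI c * Jr K 3 ≤ mI c' → RcJ R θ s T (mI c) (mI c') x u →
        RcJ R' θ' s' T' (mI (shC a b c)) (mI (shC a b c')) y (f u))
    (h : CVJ R θ E ix s x v) : CVJ R' θ' E' ix' s' y (WJ.op E' s' ω ω' a b o v) :=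
  WJ.Ok.bind h fun T c c' p ⟨u, h1, h2⟩ k hk => by
    obtain ⟨h3, h4⟩ := grd_spec (c := grd _ (grd _ (Nat.ble (T + ω - ω') E'.T))) hk
    obtain ⟨h5, h6⟩ := grd_spec h3
    obtain ⟨h6, h7⟩ := grd_spec h6
    obtain ⟨_, d, d', p', ⟨rfl, h8, h8', h9⟩, h10⟩ :=
      (ho _ _ (WJ.ok_pure h2)).fit hL _ _ _ k h4
    refine ⟨_, d, d', p', ⟨_, (hr T _ c c' u (Nat.le_of_ble_eq_true h5) ?_
      (Int.ofNat_le.2 (Nat.le_of_ble_eq_true h7)) (Vis.mul h2.vis) h1).mono (Le.mI h8) (Le.mI h8'),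
      h9⟩, h10⟩
    have h11 : ω' ≤ T + ω := Nat.le_of_ble_eq_true h6
    change ((T + ω - ω' : ℕ) : ℤ) = _
    omega

/-- cellular maps -/
theorem hm {R' : Rs 3 K G'} {θ' : G' 0 → G' 0 → Cob Laz 1} {E' : JD} {ix' : ∀ q, G' (q + 1) → ℕ}
    (hL : (E'.D.L s).Ok (ix' s)) {f : ∀ q, G q → G' q → ℤ} {ω₀ : ℤ} (hf : Hm R R' f ω₀)
    (hθ : ∀ c k', ∑ k, f 0 c k • θ' k k' = ∑ c', f 0 c' k' • θ c c') (ω ω' : ℕ)
    (e : ω₀ = ω - ω') {o : WJ → WJ}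
    (ho : OP (E.D.L s) (ix s) (E'.D.L s) (ix' s) o (zm _ (f (s + 1))))
    (h : CVJ R θ E ix s x v) :
    CVJ R' θ' E' ix' s (zm _ (f 0) x) (WJ.op E' s ω ω' 0 0 o v) :=
  h.op hL ho fun T T' _ _ _ _ h2 _ _ h5 => by
    rw [shC_zero, shC_zero, show (T' : ℤ) = T + ω₀ by omega]
    exact rc_zm hf hθ h5

theorem add (hL : (E.D.L s).Ok (ix s)) (h : CVJ R θ E ix s x v) (h' : CVJ R θ E ix s x' v') :
    CVJ R θ E ix s (x + x') (v.add (E.D.L s) v') := WJ.Ok.bind h fun _ _ _ _ ⟨_, h1, h2⟩ =>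
  WJ.Ok.bind h' fun _ _ _ _ ⟨_, h3, h4⟩ => ok_nw fun h5 _ _ h6 h7 h8 => by
    obtain rfl := Nat.eq_of_beq_eq_true h5
    exact (vo_of ((h2.cut hL h6.le_l h7.le_l).add (h4.cut hL h6.le_r h7.le_r)) h2.hT h8).mono
      fun _ h9 => ⟨_, (h1.mono (Le.mI h6.le_l) (Le.mI h7.le_l)).add
        (h3.mono (Le.mI h6.le_r) (Le.mI h7.le_r)), h9⟩

theorem wid (hL : (E.D.L s).Ok (ix s)) (d d' : Cs) (h : CVJ R θ E ix s x v) :
    CVJ R θ E ix s x (v.wid E s d d') := WJ.Ok.bind h fun T c c' _ ⟨_, h1, h2⟩ =>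
  WJ.Ok.bind (WJ.ok_pure (Q := fun T' e e' p => T' = T ∧ e = c ∧ e' = c' ∧ WP _ _ _ T' e e' p)
    ⟨rfl, rfl, rfl, h2⟩) fun _ _ _ _ ⟨h3, h4, h5, h6⟩ => ok_nw fun h7 _ _ h8 h9 h10 => by
      subst h3 h4 h5
      have h11 := le_trans' (grd_spec h7).2 h8.le
      exact (vo_of (h6.cut hL h11 h9.le_l) h6.hT h10).mono
        fun _ h12 => ⟨_, h1.mono (Le.mI h11) (Le.mI h9.le_l), h12⟩

/-- the value in a given window -/
theorem exa (hL : (E.D.L s).Ok (ix s)) (h : CVJ R θ E ix s x v) {κ : P → Bool}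
    (hc : WJ.exa (E.D.L s) T c c' v κ = true) : ∃ u p, RcJ R θ s T (mI c) (mI c') x u ∧
      VRJ (E.D.L s) (ix s) T c c' (cst' p) u ∧ κ p = true := by
  obtain ⟨T', d, d', p', ⟨u, h1, h2⟩, h3⟩ := h _ hc
  obtain ⟨h4, h5⟩ := grd_spec h3
  obtain ⟨h6, h7⟩ := grd_spec h5
  obtain ⟨h8, h9⟩ := grd_spec h7
  obtain rfl := Nat.eq_of_beq_eq_true h4
  have h10 := h2.cut hL h6 h8
  obtain ⟨p, h11, h12⟩ := h10.run _ h9
  exact ⟨u, p, h1.mono (Le.mI h6) (Le.mI h8), ⟨h10.hz, fun _ hk => ⟨p, h11, hk⟩⟩, h12⟩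

end CVJ

/-- the values of a list in a given window -/
theorem CLJ.runW (hL : (E.D.L s).Ok (ix s)) (h : CLJ R θ E ix 𝒵 l) {κ : List VC → Bool}
    (hc : WJ.runW (E.D.L s) T c c' l κ = true) :
    ∃ l' φ, List.Forall₂ (VRJ (E.D.L s) (ix s) T c c') l' φ ∧
      (∀ u ∈ φ, u ∈ SpJ R θ (mI c) (mI c') T 𝒵) ∧ κ l' = true := by
  induction h generalizing κ with
  | nil => exact ⟨[], [], .nil, (fun _ h => nomatch h), hc⟩
  | cons h1 h2 _ ih =>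
    obtain ⟨u, p, h3, h4, h5⟩ := h2.exa hL hc
    obtain ⟨l', φ, h6, h7, h8⟩ := ih h5
    exact ⟨_, u :: φ, .cons h4 h6, List.forall_mem_cons.2 ⟨⟨_, h1, h3⟩, h7⟩, h8⟩

/-- a class with given leading terms -/
theorem cv_nm (hL : (E.D.L s).Ok (ix s)) {m : List Tr}
    (h : RcJ R θ s T (mI c) (mI c') x (vL (ix s) m)) : CVJ R θ E ix s x (WJ.nm E s T c c' m) :=
  ok_kp fun h1 => by
    obtain ⟨h2, h3⟩ := grd_spec h1
    obtain ⟨h4, h5⟩ := grd_spec h3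
    exact (vo_of (vr_vJ hL h5) (Nat.le_of_ble_eq_true h2) h4).mono fun _ h6 => ⟨_, h, h6⟩

variable [DecidableEq (G 0)] {Tm s3 s4 : ℕ} (H : WxJ R θ E ix Tm s3 s4)

include H

namespace CVJ

theorem add' (h : CVJ R θ E ix s x v) (h' : CVJ R θ E ix s x' v') :
    CVJ R θ E ix s (x + x') (v.add (E.D.L s) v') := h.add (H.cx.ok s) h'

theorem sub' (h : CVJ R θ E ix s x v) (h' : CVJ R θ E ix s x' v') :
    CVJ R θ E ix s (x - x') (v.sub (E.D.L s) v') :=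
  sub_eq_add_neg x x' ▸ h.add (H.cx.ok s) h'.neg

theorem cong (h : CVJ R θ E ix s x v) (T : ℕ) (h' : x' - x ∈ BQ 3 θ (R.deg 0) T 3 s) :
    CVJ R θ E ix s x' (v.at' T) := WJ.Ok.bind h fun _ _ _ _ ⟨_, h1, h2⟩ => ok_kp fun h3 => by
  obtain rfl := Nat.eq_of_beq_eq_true h3
  exact (vo_of h2.vr h2.hT h2.vis).mono fun _ h4 => ⟨_, H.wd.cong h1 h', h4⟩

theorem up (m : Cs) (h : CVJ R θ E ix s x v) : CVJ R θ E ix s x (v.up E s m) :=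
  WJ.Ok.bind h fun T c c' p ⟨u, h1, h2⟩ => ok_kp fun h3 => by
    obtain ⟨h4, h5, h6, h7⟩ := H.bn h3
    obtain ⟨h8, h9⟩ := grd_spec h7
    obtain ⟨h10, h11⟩ := grd_spec h9
    obtain ⟨h12, h13⟩ := grd_spec h11
    have h14 := h2.vr.up (H.cx.isZ h5 h2.vis h10 h2.vr h13)
    exact (vo_of h14 h2.hT h12).mono fun _ h15 => ⟨_, H.wd.up h6 h4 h1 (inv_mI _) (inv_mI _)
      (inv_mI _) (Vis.mul h2.vis) (Le.mI h8) (Le.mI h10) ((H.cx.pa (add_zero _).symm).2 h14.hz), h15⟩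

theorem lc {m : ℕ} {z : Cob Laz m} {ω a b : ℕ} (e : m + s = s') {o : WJ → WJ}
    {f : (G (s + 1) → A) → G (s' + 1) → A} {M : Ideal A}
    (ho : OQ (fun s => WR (E.D.L s) (ix s)) s s' o f) (hM : ∀ c, M * mI c ≤ mI (shC a b c))
    (hr : ∀ (w w' : ℤ) K₀ K₁ u, P236EL.Inv 3 K₀ → P236EL.Inv 3 K₁ → K₀ * Jr K 3 ≤ K₁ → w' ≤ E.T →
      s' ≤ E.Q → ω + w = w' → RcJ R θ s w K₀ K₁ x u →
        RcJ R θ s' w' (M * K₀) (M * K₁) (P236EL.lc _ e z x) (f u)) (h : CVJ R θ E ix s x v) :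
    CVJ R θ E ix s' (P236EL.lc _ e z x) (WJ.op E s' ω 0 a b o v) :=
  h.op (H.cx.ok s') ho fun T T' _ _ _ h1 h2 h3 h4 h5 =>
    (hr _ _ _ _ _ (inv_mI _) (inv_mI _) h4 h3 h1 (by omega) h5).mono (hM _) (hM _)

omit H hp in
theorem one_le (c : Cs) : (1 : Ideal A) * mI c ≤ mI (shC 0 0 c) := by rw [one_mul, shC_zero]

variable {t : Cob Laz 1} (ht : IsT1 3 t)

include ht

theorem vm (k : ℕ) (e : 0 + s = s) (h : CVJ R θ E ix s x v) :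
    CVJ R θ E ix s (P236EL.lc _ e (v1 ^ k) x) (v.cvm E Tm s k) :=
  h.lc H e (fun _ _ hv => hv.v1 (H.cx.hT s) k) (mI_shC_v k) fun _ _ _ _ _ h1 h2 h3 h4 h5 h6 =>
    rc_vm H.wd h1 h2 h3 h4 ht h5 h6 e (inv_v k)

theorem v1 (e : 0 + s = s) (h : CVJ R θ E ix s x v) :
    CVJ R θ E ix s (P236EL.lc _ e v1 x) (v.cvm E Tm s 1) :=
  (h.vm H ht 1 e).cast (by rw [pow_one])

theorem tm (k : ℕ) (hz : (fun _ => t ^ k) ∈ ZS k 1) (e : 1 + s = s') (h : CVJ R θ E ix s x v) :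
    CVJ R θ E ix s' (P236EL.lc _ e (t ^ k) x) (v.ctm E Tm s k) := by
  obtain rfl : s' = s + 1 := by omega
  exact h.lc H e ((pr_ok H.cx).tm k) one_le fun _ _ _ _ _ h1 h2 h3 h4 h5 h6 h7 => by
    simpa only [one_mul] using rc_tm H.wd h1 h2 h3 h4 ht h5 hz h6 e h7

theorem t1 (e : 1 + s = s') (h : CVJ R θ E ix s x v) :
    CVJ R θ E ix s' (P236EL.lc _ e t x) (v.ctm E Tm s 1) :=
  (h.tm H ht 1 (by rw [pow_one]; exact zs_t ht) e).cast (by rw [pow_one])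

theorem bm (e : 2 + s = s') (h : CVJ R θ E ix s x v) :
    CVJ R θ E ix s' (lb t s e x) (v.cbm E Tm s) := by
  obtain rfl : s' = s + 2 := by omega
  exact h.lc H (ω := 3) e ((pr_ok H.cx).bm 1) one_le fun _ _ _ _ _ h1 h2 h3 h4 h5 h6 h7 => by
    simpa only [one_mul] using rc_bm H.wd h1 h2 h3 h4 ht h5 h6 e h7

omit ht

variable {f : ℕ} {z : Cob Laz 1} {y : Cob Laz 2}

theorem gm (hz : Grk f (k + 1) z y) (e : 1 + s = s') (h : CVJ R θ E ix s x v) :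
    CVJ R θ E ix s' (P236EL.lc _ e z x) (v.cgm E Tm s (3 ^ f) k) := by
  obtain rfl : s' = s + 1 := by omega
  have h0 : (3 : ℤ) ^ f * (4 * (k + 1 : ℕ) - 1) = (3 ^ f * (4 * k + 3) : ℕ) := by
    push_cast
    ring
  exact h.lc H e ((pr_ok H.cx).gm f k) (mI_shC_I _) fun _ _ _ _ _ h1 h2 h3 h4 h5 h6 =>
    rc_gm H.wd h1 h2 h3 h4 hz h5 (h0 ▸ h6) e

theorem b0 (hz : Grk 0 (k + 2) z y) (e : 2 + s = s') (h : CVJ R θ E ix s x v) :
    CVJ R θ E ix s' (P236EL.lc _ e y x) (v.cb0 E Tm s k) := by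
  obtain rfl : s' = s + 2 := by omega
  have h0 : (3 : ℤ) ^ 0 * (4 * (k + 2 : ℕ) - 1) = (4 * k + 7 : ℕ) := by
    push_cast
    ring
  exact h.lc H e ((pr_ok H.cx).b0 k) (mI_shC_I _) fun _ _ _ _ _ h1 h2 h3 h4 h5 h6 =>
    rc_bk H.wd h1 h2 h3 h4 hz h5 (h0 ▸ h6) e

theorem b1 (hz : Grk (f + 1) (k + 2) z y) (e : 2 + s = s') (h : CVJ R θ E ix s x v) :
    CVJ R θ E ix s' (P236EL.lc _ e y x) (v.cb1 E Tm s (3 ^ f) k) := by
  obtain rfl : s' = s + 2 := by omega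
  have h0 : (3 : ℤ) ^ (f + 1) * (4 * (k + 2 : ℕ) - 1) = (3 ^ f * 3 * (4 * k + 7) : ℕ) := by
    push_cast
    ring
  exact h.lc H e ((pr_ok H.cx).b1 f k) (mI_shC_I _) fun _ _ _ _ _ h1 h2 h3 h4 h5 h6 =>
    rc_bk H.wd h1 h2 h3 h4 hz h5 (h0 ▸ h6) e

theorem b2 (hz : Grk (f + 1) 1 z y) (e : 2 + s = s') (h : CVJ R θ E ix s x v) :
    CVJ R θ E ix s' (P236EL.lc _ e y x) (v.cb2 E Tm s (3 ^ f)) := by
  obtain rfl : s' = s + 2 := by omega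
  have h0 : (3 : ℤ) ^ (f + 1) * (4 * (1 : ℕ) - 1) = (3 ^ f * 9 : ℕ) := by
    push_cast
    ring
  exact h.lc H e ((pr_ok H.cx).b2 f) (mI_shC_I _) fun _ _ _ _ _ h1 h2 h3 h4 h5 h6 =>
    rc_bk H.wd h1 h2 h3 h4 hz h5 (h0 ▸ h6) e

end CVJ

end Vale.Agent.P236JT

end
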