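import Vale.Agent.P236JT.Fa
import Vale.Agent.P236JG.Dat

/-!
# P236JT / F34 : the checks for the products in stem 343
-/

noncomputable section

namespace Vale.Agent.P236JT

open Vale.Agent.P251.F Vale.Agent.P251.I Vale.Agent.P236SY Vale.Agent.P236R
open Vale.Agent.P236EL Vale.Agent.P236KE Vale.Agent.P236K3 Vale.Agent.P236F Vale.Agent.P236KE.S90
open Vale.Agent.P236J3 Vale.Agent.P236JF Vale.Agent.P236JX Vale.Agent.P236JG AddSubgroup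

def m323 : List Tr :=
  [⟨18, 0, 0, 0, 1, 1⟩, ⟨16, 1, 1, 0, 1, 1⟩, ⟨22, 1, 0, 2, 0, 2⟩, ⟨24, 1, 1, 1, 0, 1⟩,
    ⟨25, 1, 1, 1, 0, 2⟩, ⟨34, 2, 1, 0, 0, 1⟩, ⟨10, 0, 0, 4, 0, 1⟩, ⟨10, 0, 3, 0, 1, 2⟩,
    ⟨20, 0, 2, 2, 0, 2⟩, ⟨2, 1, 1, 2, 1, 1⟩]
def n323 : List Tr :=
  [⟨6, 1, 12, 1, 0, 1⟩, ⟨2, 4, 7, 3, 0, 2⟩, ⟨9, 12, 1, 0, 1, 2⟩, ⟨23, 12, 2, 0, 0, 2⟩]
def m268 : List Tr :=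
  [⟨11, 0, 6, 0, 0, 1⟩, ⟨13, 2, 4, 0, 0, 2⟩, ⟨13, 5, 0, 1, 0, 1⟩, ⟨17, 5, 1, 0, 0, 2⟩]
def l329 : List (List Tr) :=
  [[⟨35, 0, 0, 0, 0, 1⟩, ⟨32, 0, 1, 0, 0, 1⟩, ⟨20, 0, 1, 1, 0, 1⟩, ⟨21, 0, 1, 1, 0, 2⟩,
    ⟨17, 1, 2, 1, 0, 1⟩, ⟨19, 2, 1, 1, 0, 1⟩, ⟨3, 2, 0, 2, 1, 2⟩, ⟨7, 2, 1, 1, 1, 1⟩,
    ⟨12, 1, 3, 2, 0, 2⟩, ⟨18, 1, 5, 0, 0, 1⟩, ⟨5, 2, 2, 1, 1, 1⟩, ⟨6, 1, 2, 4, 0, 1⟩,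
    ⟨7, 0, 5, 3, 0, 2⟩, ⟨2, 2, 7, 0, 1, 1⟩, ⟨7, 1, 8, 2, 0, 1⟩, ⟨0, 2, 8, 0, 1, 1⟩,
    ⟨6, 0, 12, 1, 0, 2⟩, ⟨2, 1, 14, 1, 0, 2⟩, ⟨0, 1, 15, 1, 0, 1⟩],
  [⟨23, 1, 0, 1, 0, 1⟩, ⟨17, 1, 2, 1, 0, 2⟩, ⟨19, 2, 1, 1, 0, 2⟩, ⟨3, 2, 0, 2, 1, 1⟩,
    ⟨7, 2, 1, 1, 1, 1⟩, ⟨13, 1, 3, 2, 0, 1⟩, ⟨18, 1, 5, 0, 0, 1⟩, ⟨1, 2, 1, 2, 1, 1⟩,
    ⟨5, 2, 2, 1, 1, 1⟩, ⟨6, 1, 2, 4, 0, 1⟩, ⟨6, 1, 5, 0, 1, 1⟩, ⟨3, 0, 7, 0, 1, 1⟩,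
    ⟨0, 1, 2, 5, 0, 1⟩, ⟨0, 1, 5, 1, 1, 2⟩, ⟨1, 0, 5, 4, 0, 2⟩, ⟨1, 0, 8, 0, 1, 1⟩,
    ⟨2, 2, 7, 0, 1, 1⟩, ⟨7, 1, 8, 2, 0, 2⟩, ⟨0, 2, 8, 0, 1, 1⟩, ⟨2, 0, 11, 2, 0, 1⟩,
    ⟨6, 0, 12, 1, 0, 2⟩, ⟨1, 2, 11, 2, 0, 2⟩, ⟨2, 1, 14, 1, 0, 2⟩],
  [⟨30, 2, 1, 0, 0, 1⟩, ⟨19, 2, 1, 1, 0, 2⟩, ⟨3, 2, 0, 2, 1, 2⟩, ⟨13, 1, 3, 2, 0, 1⟩,
    ⟨1, 2, 1, 2, 1, 1⟩, ⟨6, 1, 5, 0, 1, 1⟩, ⟨3, 0, 7, 0, 1, 1⟩, ⟨7, 0, 5, 3, 0, 2⟩,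
    ⟨0, 1, 2, 5, 0, 1⟩, ⟨0, 1, 5, 1, 1, 2⟩, ⟨1, 0, 5, 4, 0, 2⟩, ⟨1, 0, 8, 0, 1, 1⟩,
    ⟨2, 2, 7, 0, 1, 2⟩, ⟨7, 1, 8, 2, 0, 1⟩, ⟨0, 2, 8, 0, 1, 2⟩, ⟨8, 0, 11, 1, 0, 1⟩,
    ⟨5, 1, 9, 2, 0, 2⟩, ⟨2, 0, 11, 2, 0, 1⟩, ⟨6, 0, 12, 1, 0, 2⟩, ⟨1, 2, 11, 2, 0, 1⟩,
    ⟨5, 2, 12, 1, 0, 2⟩, ⟨0, 1, 15, 1, 0, 1⟩],
  [⟨10, 2, 1, 0, 1, 1⟩, ⟨3, 2, 0, 2, 1, 2⟩, ⟨13, 1, 3, 2, 0, 1⟩, ⟨18, 1, 5, 0, 0, 1⟩,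
    ⟨1, 2, 1, 2, 1, 1⟩, ⟨6, 1, 5, 0, 1, 1⟩, ⟨3, 0, 7, 0, 1, 1⟩, ⟨7, 0, 5, 3, 0, 2⟩,
    ⟨0, 1, 2, 5, 0, 1⟩, ⟨0, 1, 5, 1, 1, 2⟩, ⟨1, 0, 5, 4, 0, 2⟩, ⟨1, 0, 8, 0, 1, 1⟩,
    ⟨7, 1, 8, 2, 0, 1⟩, ⟨8, 0, 11, 1, 0, 1⟩, ⟨5, 1, 9, 2, 0, 2⟩, ⟨2, 0, 11, 2, 0, 1⟩,
    ⟨6, 0, 12, 1, 0, 2⟩, ⟨5, 2, 12, 1, 0, 2⟩, ⟨2, 1, 14, 1, 0, 1⟩, ⟨0, 1, 15, 1, 0, 2⟩],
  [⟨15, 2, 0, 2, 0, 1⟩, ⟨19, 2, 1, 1, 0, 2⟩, ⟨3, 2, 0, 2, 1, 2⟩, ⟨7, 2, 1, 1, 1, 2⟩,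
    ⟨1, 2, 1, 2, 1, 2⟩, ⟨5, 2, 2, 1, 1, 2⟩, ⟨6, 1, 2, 4, 0, 2⟩, ⟨6, 1, 5, 0, 1, 2⟩,
    ⟨3, 0, 7, 0, 1, 2⟩, ⟨0, 1, 2, 5, 0, 2⟩, ⟨0, 1, 5, 1, 1, 1⟩, ⟨1, 0, 5, 4, 0, 1⟩,
    ⟨1, 0, 8, 0, 1, 2⟩, ⟨2, 2, 7, 0, 1, 2⟩, ⟨7, 1, 8, 2, 0, 2⟩, ⟨0, 2, 8, 0, 1, 2⟩,
    ⟨8, 0, 11, 1, 0, 1⟩, ⟨2, 0, 11, 2, 0, 2⟩, ⟨6, 0, 12, 1, 0, 1⟩, ⟨1, 2, 11, 2, 0, 1⟩,
    ⟨5, 2, 12, 1, 0, 2⟩, ⟨2, 1, 14, 1, 0, 1⟩, ⟨0, 1, 15, 1, 0, 1⟩],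
  [⟨2, 1, 1, 5, 0, 1⟩, ⟨2, 1, 4, 1, 1, 2⟩, ⟨3, 0, 7, 0, 1, 2⟩, ⟨7, 0, 5, 3, 0, 2⟩,
    ⟨0, 1, 2, 5, 0, 1⟩, ⟨0, 1, 5, 1, 1, 2⟩, ⟨1, 0, 5, 4, 0, 1⟩, ⟨1, 0, 8, 0, 1, 2⟩,
    ⟨2, 2, 7, 0, 1, 2⟩, ⟨0, 2, 8, 0, 1, 2⟩, ⟨5, 1, 9, 2, 0, 2⟩, ⟨2, 0, 11, 2, 0, 2⟩,
    ⟨6, 0, 12, 1, 0, 1⟩, ⟨5, 2, 12, 1, 0, 2⟩, ⟨2, 1, 14, 1, 0, 2⟩],
  [⟨3, 0, 4, 4, 0, 1⟩, ⟨3, 0, 7, 0, 1, 2⟩, ⟨1, 0, 5, 4, 0, 1⟩, ⟨1, 0, 8, 0, 1, 2⟩,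
    ⟨0, 2, 8, 0, 1, 2⟩, ⟨8, 0, 11, 1, 0, 2⟩, ⟨5, 1, 9, 2, 0, 2⟩, ⟨2, 0, 11, 2, 0, 2⟩,
    ⟨6, 0, 12, 1, 0, 2⟩, ⟨1, 2, 11, 2, 0, 1⟩, ⟨2, 1, 14, 1, 0, 2⟩, ⟨0, 1, 15, 1, 0, 1⟩],
  [⟨5, 0, 6, 3, 0, 1⟩, ⟨0, 2, 8, 0, 1, 2⟩, ⟨8, 0, 11, 1, 0, 1⟩, ⟨5, 1, 9, 2, 0, 1⟩,
    ⟨6, 0, 12, 1, 0, 2⟩, ⟨1, 2, 11, 2, 0, 1⟩, ⟨5, 2, 12, 1, 0, 1⟩, ⟨2, 1, 14, 1, 0, 2⟩,
    ⟨0, 1, 15, 1, 0, 2⟩],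
  [⟨9, 1, 7, 2, 0, 1⟩, ⟨7, 1, 8, 2, 0, 1⟩, ⟨0, 2, 8, 0, 1, 2⟩, ⟨1, 2, 11, 2, 0, 1⟩,
    ⟨5, 2, 12, 1, 0, 2⟩, ⟨2, 1, 14, 1, 0, 2⟩, ⟨0, 1, 15, 1, 0, 2⟩],
  [⟨6, 2, 5, 3, 0, 1⟩, ⟨1, 2, 11, 2, 0, 2⟩, ⟨2, 1, 14, 1, 0, 2⟩, ⟨0, 1, 15, 1, 0, 2⟩],
  [⟨0, 2, 5, 4, 0, 1⟩, ⟨0, 2, 8, 0, 1, 2⟩, ⟨1, 2, 11, 2, 0, 1⟩, ⟨5, 2, 12, 1, 0, 2⟩],
  [⟨4, 0, 10, 2, 0, 1⟩, ⟨6, 0, 12, 1, 0, 2⟩, ⟨1, 2, 11, 2, 0, 1⟩, ⟨5, 2, 12, 1, 0, 1⟩,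
    ⟨2, 1, 14, 1, 0, 1⟩, ⟨0, 1, 15, 1, 0, 1⟩],
  [⟨1, 1, 8, 3, 0, 1⟩, ⟨1, 2, 11, 2, 0, 2⟩, ⟨5, 2, 12, 1, 0, 2⟩, ⟨2, 1, 14, 1, 0, 2⟩,
    ⟨0, 1, 15, 1, 0, 1⟩],
  [⟨1, 0, 18, 0, 0, 1⟩]]
def a322 : List (Cs × Cs × Cs) :=
  [([(3, 4)], [(6, 7)], [(0, 6), (2, 4)]),
   ([(3, 8), (5, 7)], [(6, 11), (8, 10)], [(0, 8), (4, 7)]),
   ([(3, 11), (7, 10)], [(6, 14), (10, 13)], [(0, 11), (3, 10)]),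
   ([(3, 14), (6, 13)], [(6, 17), (9, 16)], [(0, 14), (4, 13)]),
   ([(3, 17), (7, 16)], [(6, 20), (10, 19)], [(0, 14)])]
def b322 : List (Cs × Cs × Cs) :=
  [([(3, 17)], [(6, 20)], [(0, 17), (9, 16)]),
   ([(3, 20), (12, 19)], [(6, 23), (15, 22)], [(0, 19), (16, 18)]),
   ([(3, 22), (19, 21)], [(6, 25), (22, 24)], [(0, 22), (3, 21)]),
   ([(3, 25), (6, 24)], [(6, 28), (9, 27)], [(0, 24), (8, 23)]),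
   ([(3, 27), (11, 26)], [(6, 30), (14, 29)], [(0, 26), (12, 25)]),
   ([(3, 29), (15, 28)], [(6, 32), (18, 31)], [(0, 29), (14, 28)]),
   ([(3, 32), (17, 31)], [(6, 35), (20, 34)], [(0, 32), (17, 31)]),
   ([(3, 35), (20, 34)], [(6, 38), (23, 37)], [(0, 35), (20, 34)]),
   ([(3, 38), (23, 37)], [(6, 41), (26, 40)], [(0, 37), (23, 36)]),
   ([(3, 40), (26, 39)], [(6, 43), (29, 42)], [(0, 39), (31, 38)]),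
   ([(3, 42), (34, 41)], [(6, 45), (37, 44)], [(0, 42), (32, 41)]),
   ([(3, 45), (35, 44)], [(6, 48), (38, 47)], [(0, 45), (35, 44)]),
   ([(3, 48), (38, 47)], [(6, 51), (41, 50)], [(0, 48), (38, 47)]),
   ([(3, 51), (41, 50)], [(6, 54), (44, 53)], [(0, 51), (41, 50)]),
   ([(3, 54), (44, 53)], [(6, 57), (47, 56)], [(0, 53), (48, 52)]),
   ([(3, 56), (51, 55)], [(6, 59), (54, 58)], [(0, 56), (50, 55)]),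
   ([(3, 59), (53, 58)], [(6, 62), (56, 61)], [(0, 59), (53, 58)]),
   ([(3, 62), (56, 61)], [(6, 65), (59, 64)], [(0, 62), (56, 61)]),
   ([(3, 65), (59, 64)], [(6, 68), (62, 67)], [(0, 64), (59, 63)]),
   ([(3, 67), (62, 66)], [(6, 70), (65, 69)], [(0, 67), (62, 66)]),
   ([(3, 70), (65, 69)], [(6, 73), (68, 72)], [(0, 69), (68, 68)]),
   ([(3, 72), (71, 71)], [(6, 75), (74, 74)], [(0, 71)])]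
def a267 : List (Cs × Cs × Cs) :=
  [([(3, 9)], [(6, 12)], [(0, 10), (2, 9)]),
   ([(3, 13), (5, 12)], [(6, 16), (8, 15)], [(0, 13), (2, 12)]),
   ([(3, 16), (5, 15)], [(6, 19), (8, 18)], [(0, 15), (10, 14)]),
   ([(3, 18), (13, 17)], [(6, 21), (16, 20)], [(0, 17), (15, 16)]),
   ([(3, 20), (18, 19)], [(6, 23), (21, 22)], [(0, 20), (7, 19)]),
   ([(3, 23), (10, 22)], [(6, 26), (13, 25)], [(0, 22), (14, 21)]),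
   ([(3, 25), (17, 24)], [(6, 28), (20, 27)], [(0, 25), (17, 24)]),
   ([(3, 28), (20, 27)], [(6, 31), (23, 30)], [(0, 28), (19, 27)]),
   ([(3, 31), (22, 30)], [(6, 34), (25, 33)], [(0, 31), (22, 30)]),
   ([(3, 34), (25, 33)], [(6, 37), (28, 36)], [(0, 33), (25, 32)]),
   ([(3, 36), (28, 35)], [(6, 39), (31, 38)], [(0, 35), (30, 34)]),
   ([(3, 38), (33, 37)], [(6, 41), (36, 40)], [(0, 38), (31, 37)]),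
   ([(3, 41), (34, 40)], [(6, 44), (37, 43)], [(0, 40), (38, 39)]),
   ([(3, 43), (41, 42)], [(6, 46), (44, 45)], [(0, 43), (41, 42)]),
   ([(3, 46), (44, 45)], [(6, 49), (47, 48)], [(0, 46), (43, 45)]),
   ([(3, 49), (46, 48)], [(6, 52), (49, 51)], [(0, 49), (46, 48)]),
   ([(3, 52), (49, 51)], [(6, 55), (52, 54)], [(0, 51), (49, 50)]),
   ([(3, 54), (52, 53)], [(6, 57), (55, 56)], [(0, 54), (52, 53)]),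
   ([(3, 57), (55, 56)], [(6, 60), (58, 59)], [(0, 54)])]
def a343 : List (Cs × Cs × Cs) :=
  [([(0, 6), (2, 4)], [(3, 9), (5, 7)], [(0, 1)])]
def b343 : List (Cs × Cs × Cs) :=
  [([(0, 15), (3, 4)], [(3, 18), (6, 7)], [(0, 1)]),
   ([(0, 19), (2, 18), (3, 4)], [(3, 22), (5, 21), (6, 7)], [(0, 1)])]
def d343 : List (Cs × Cs × Cs) :=
  [([(3, 4)], [(6, 7)], [(0, 5), (1, 4)]),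
   ([(3, 8), (4, 7)], [(6, 11), (7, 10)], [(0, 8), (3, 7)]),
   ([(3, 11), (6, 10)], [(6, 14), (9, 13)], [(0, 11), (4, 10)]),
   ([(3, 14), (7, 13)], [(6, 17), (10, 16)], [(0, 14), (1, 13)]),
   ([(3, 17), (4, 16)], [(6, 20), (7, 19)], [(0, 16), (10, 15)]),
   ([(3, 19), (13, 18)], [(6, 22), (16, 21)], [(0, 19), (9, 18)]),
   ([(3, 22), (12, 21)], [(6, 25), (15, 24)], [(0, 22), (12, 21)]),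
   ([(3, 25), (15, 24)], [(6, 28), (18, 27)], [(0, 25), (8, 24)]),
   ([(3, 28), (11, 27)], [(6, 31), (14, 30)], [(0, 27), (13, 26)]),
   ([(3, 30), (16, 29)], [(6, 33), (19, 32)], [(0, 30), (14, 29)]),
   ([(3, 33), (17, 32)], [(6, 36), (20, 35)], [(0, 32), (21, 31)]),
   ([(3, 35), (24, 34)], [(6, 38), (27, 37)], [(0, 34), (29, 33)]),
   ([(3, 37), (32, 36)], [(6, 40), (35, 39)], [(0, 36), (34, 35)]),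
   ([(3, 39), (37, 38)], [(6, 42), (40, 41)], [(0, 39), (26, 38)]),
   ([(3, 42), (29, 41)], [(6, 45), (32, 44)], [(0, 41), (33, 40)]),
   ([(3, 44), (36, 43)], [(6, 47), (39, 46)], [(0, 44), (36, 43)]),
   ([(3, 47), (39, 46)], [(6, 50), (42, 49)], [(0, 47), (38, 46)]),
   ([(3, 50), (41, 49)], [(6, 53), (44, 52)], [(0, 50), (41, 49)]),
   ([(3, 53), (44, 52)], [(6, 56), (47, 55)], [(0, 52), (44, 51)]),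
   ([(3, 55), (47, 54)], [(6, 58), (50, 57)], [(0, 54), (49, 53)]),
   ([(3, 57), (52, 56)], [(6, 60), (55, 59)], [(0, 57), (50, 56)]),
   ([(3, 60), (53, 59)], [(6, 63), (56, 62)], [(0, 59), (57, 58)]),
   ([(3, 62), (60, 61)], [(6, 65), (63, 64)], [(0, 62), (60, 61)]),
   ([(3, 65), (63, 64)], [(6, 68), (66, 67)], [(0, 65), (62, 64)]),
   ([(3, 68), (65, 67)], [(6, 71), (68, 70)], [(0, 68), (65, 67)]),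
   ([(3, 71), (68, 70)], [(6, 74), (71, 73)], [(0, 70), (68, 69)]),
   ([(3, 73), (71, 72)], [(6, 76), (74, 75)], [(0, 73), (71, 72)]),
   ([(3, 76), (74, 75)], [(6, 79), (77, 78)], [(0, 73)])]

/-- the product of `β ^ 2` with the class of level 1 -/
def w1 : WJ := ((WJ.nm eJ 5 82 [(0, 1)] [(0, 6), (2, 4)] m323).cbm eJ 90 5).cbm eJ 90 7
/-- the product of `β ^ 2` with the class of level 14 -/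
def w3' : WJ := ((WJ.nm eJ 5 82 [(0, 14)] [(0, 15)] n323).cbm eJ 90 5).cbm eJ 90 7
/-- the product with the class of stem 75 -/
def w2 : WJ := (WJ.nm eJ 8 69 [(0, 6)] [(0, 7)] m268).cgm eJ 90 8 (3 ^ 0) 4

theorem x322 : (eJ.clF 5 82 [(0, 1)] [(3, 4)] [(0, 6), (2, 4)] m323 &&
    eJ.clF 5 82 [(0, 14)] [(3, 17)] [(0, 15)] n323 && chF eJ 6 82 [(3, 17)] a322 &&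
      chF eJ 6 82 [(3, 74)] b322 && eJ.em 6 82 [(3, 74)]) = true := by decide +kernel

theorem x267 : (eJ.clF 8 69 [(0, 6)] [(3, 9)] [(0, 7)] m268 && chF eJ 9 69 [(3, 57)] a267 &&
    eJ.em 9 69 [(3, 57)]) = true := by decide +kernel

theorem x329 : eJ.geF 7 84 [(0, 0)] [(3, 3)] [(0, 0)] [(3, 3)] l329 = true := by decide +kernel

theorem x343 : (chF eJ 9 88 [(3, 76)] d343 && eJ.em 9 88 [(3, 76)]) = true := by decide +kernel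

theorem y343 : (chF eJ 9 88 [(0, 10), (1, 9), (3, 4)] a343 && chF eJ 9 88 [(3, 4)] b343 &&
    WJ.ge eJ 9 88 [(0, 10), (1, 9), (3, 4)] [(3, 13), (4, 12), (6, 7)] [(0, 1)] [(0, 11), (3, 4)] [w2] &&
      WJ.ge eJ 9 88 [(0, 11), (3, 4)] [(3, 14), (6, 7)] [(0, 1)] [(0, 15), (3, 4)] [w3']) = true := by
  decide +kernel

theorem z343 : WJ.lfM eJ 9 88 [(0, 1)] [(0, 6), (2, 4)] (fun m =>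
    ((WJ.nm eJ 7 84 [(0, 0)] [(3, 3)] m).cvm eJ 90 7 1).cbm eJ 90 7) l329 [w1] = true := by
  decide +kernel

end Vale.Agent.P236JT

end
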