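import Vale.Agent.P236F.Tn

/-!
# P236JT / Gen : rows of the complex with cells, for arbitrary coordinates
-/

noncomputable section

namespace Vale.Agent.P236JT

open MvPolynomial Vale.Agent.P236EL Vale.Agent.P236KE Vale.Agent.P236K2 Vale.Agent.P236K3
open Vale.Agent.P236F

variable {ι : Type} [Fintype ι] [DecidableEq ι] {Y : CD} {Z' : Ga K ι} {ic : ι → ℕ} {o : ℤ}
  {W W' : Type} {L L' : LD} {ix : W → ℕ} {ix' : W' → ℕ} [Fintype W] [Fintype W']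
  [Fact (Nat.Prime 3)]

variable (Z') in
/-- the functionals of the complex with cells -/
abbrev ty (y : W → W' → (ℕ →₀ ℕ) → A) (a : W × ι) (b : W' × ι) : (ℕ →₀ ℕ) → A :=
  mulF ((Z'.cm 3).ps a.2 b.2) (y a.1 b.1)

omit [Fintype W'] in
theorem dly_ty (hY : Y.Ok Z' ic o) (y : W → W' → (ℕ →₀ ℕ) → A) (F J : ℕ →₀ ℕ) (a : W × ι)
    (c : ι) : (fun w => dly (ty Z' y) (monomial F 1) (bv a J) (w, c)) =
      (Y.a (ic a.2) (ic c) : K) • dly y
        (monomial (F + Finsupp.single 0 (Y.d (ic a.2) - Y.d (ic c))) 1) (bv a.1 J) := by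
  rw [dly_bv, dly_bv, Nat.cast_smul_eq_nsmul, ← map_nsmul, nsmul_eq_mul, mon_add]
  refine funext fun w => (rAp_mulF _ _ _ _).trans ?_
  rw [map_id, hY.ps, mul_assoc, ← mul_assoc (X 0 ^ _), mul_comm (X 0 ^ _)]
  rfl

omit [Fintype W'] in
/-- the rows of the complex with cells -/
theorem tR_row (hY : Y.Ok Z' ic o) (hL : L.Ok ix) {y : W → W' → (ℕ →₀ ℕ) → A}
    {q : (W' → A) →ₗ[K] V} {q' : (W' × ι → A) →ₗ[K] V}
    (hq : ∀ u, q' u = ∑ c, sh (ic c * L'.N) (q fun w => u (w, c))) {r : Rw} {x e2 e3 e4 : ℕ}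
    {F J : ℕ →₀ ℕ} (a : W × ι) (h : ∀ n ≤ Y.d (ic a.2), (r.f (x + n) (ix a.1) e2 e3 e4).R
      (q (dly y (monomial (F + Finsupp.single 0 n) 1) (bv a.1 J)))) :
    ((tR Y r L L').f x (tix L ix ic a) e2 e3 e4).R
      (q' (dly (ty Z' y) (monomial F 1) (bv a J))) := by
  simp only [hq, dly_ty hY, map_smul]
  rw [hY.sum fun j => (Y.a (ic a.2) j : K) • sh (j * L'.N) (q (dly y
    (monomial (F + Finsupp.single 0 (Y.d (ic a.2) - Y.d j)) 1) (bv a.1 J))), tix,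
    tR_f r (hL.lt _)]
  refine loop_R _ fun j _ x u hx => ?_
  rw [tr3, force_eq, tr4, pf_eq, ← map_smul]
  exact ((P.R.sm _ fun _ => h _ (Nat.sub_le _ _)).shl _).add hx

omit [Fintype W] [Fintype W'] in
theorem hy_ty (hY : Y.Ok Z' ic o) (hL : L.Ok ix) (hL' : L'.Ok ix') {y : W → W' → (ℕ →₀ ℕ) → A}
    (hy : ∀ w w', HomR 3 ((L.dg (ix w) : ℤ) - L'.dg (ix' w')) (y w w')) (a : W × ι) (b : W' × ι) :
    HomR 3 (((tL Y L).dg (tix L ix ic a) : ℤ) - (tL Y L').dg (tix L' ix' ic b)) (ty Z' y a b) := by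
  have h1 := homR_mulF ((Z'.cm 3).hps a.2 b.2) (hy a.1 b.1)
  rw [tix, tix, tL_dg (hL.lt _), tL_dg (hL'.lt _)]
  change HomR 3 (_ + (Z'.d _ - Z'.d _)) _ at h1
  rw [hY.d, hY.d] at h1
  exact (congrArg (HomR 3 · _) (by omega)).mp h1

end Vale.Agent.P236JT

end
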