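import Vale.Agent.P236JT.Ck

/-!
# P236JT / Lo : linear families of computed classes
-/

noncomputable section

namespace Vale.Agent.P236JT

open Vale.Agent.P251.F Vale.Agent.P251.I Vale.Agent.P236SY Vale.Agent.P236R MvPolynomial
open Vale.Agent.P236EL Vale.Agent.P236KE Vale.Agent.P236K2 Vale.Agent.P236K3 Vale.Agent.P236F
open Vale.Agent.P236J3 Vale.Agent.P236JF Vale.Agent.P236JX AddSubgroup

variable [hp : Fact (Nat.Prime 3)] {G G' : ℕ → Type} [∀ q, Fintype (G q)] [∀ q, Fintype (G' q)]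
  {X₀ W : Type} (S : X₀ → (W → A) → Prop) (i₀ : W → ℕ)
  (R : Rs 3 K G) (θ : G 0 → G 0 → Cob Laz 1) (E : JD) (ix : ∀ q, G (q + 1) → ℕ)

/-- the value is `f u`, and `f` represents `F` in the window -/
def FP (s : ℕ) (f : (W → A) →+ G (s + 1) → A) (F : X₀ → G 0 → Cob Laz s) (u : W → A) (T : ℕ)
    (c c' : Cs) (p : P) : Prop := WP (E.D.L s) (ix s) (f u) T c c' p ∧
  ∀ x w, S x w → RcJ R θ s T (mI c) (mI c') (F x) (f w)

/-- the computations evaluate a linear map which represents `F` -/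
def LF (s : ℕ) (F : X₀ → G 0 → Cob Laz s) (o : List Tr → WJ) : Prop :=
  ∃ f, ∀ m, (o m).Ok (FP S R θ E ix s f F (vL i₀ m))

/-- twisted differentials are additive -/
def dlH (s : ℕ) (g : GG K) : (G (s + 1) → A) →+ G (s + 2) → A :=
  AddMonoidHom.mk' (R.dl s g) fun u u' => by simp only [← Rs.star_arr, map_add]

variable {S i₀ R θ E ix} {s s' T k : ℕ} {c c' : Cs} {F F' : X₀ → G 0 → Cob Laz s}
  {o o' : List Tr → WJ}

/-- the family of all classes in a window -/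
theorem lf_nm (hL : (E.D.L s).Ok (ix s)) (T : ℕ) (c c' : Cs) :
    LF (RcJ R θ s T (mI c) (mI c')) (ix s) R θ E ix s id (WJ.nm E s T c c') :=
  ⟨AddMonoidHom.id _, fun _ => ok_kp fun h1 => by
    obtain ⟨h2, h3⟩ := grd_spec h1
    obtain ⟨h4, h5⟩ := grd_spec h3
    exact (vo_of (vr_vJ hL h5) (Nat.le_of_ble_eq_true h2) h4).mono fun _ h6 => ⟨h6, fun _ _ h => h⟩⟩

namespace LF

theorem cast (h : LF S i₀ R θ E ix s F o) (e : ∀ x, F x = F' x) : LF S i₀ R θ E ix s F' o :=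
  funext e ▸ h

theorem mono {S' : X₀ → (W → A) → Prop} (h : LF S i₀ R θ E ix s F o) (h' : ∀ x w, S' x w → S x w) :
    LF S' i₀ R θ E ix s F o :=
  h.imp fun _ h m => (h m).mono fun _ _ _ _ h1 => ⟨h1.1, fun x w h2 => h1.2 x w (h' x w h2)⟩

theorem neg (h : LF S i₀ R θ E ix s F o) : LF S i₀ R θ E ix s (fun x => -F x) fun m => (o m).neg :=
  h.elim fun f h => ⟨-f, fun m => (h m).bind fun _ _ _ _ ⟨h2, h1⟩ => ok_kp fun _ =>
    (vo_of h2.vr.neg h2.hT h2.vis).mono fun _ h3 => ⟨h3, fun x w h => (h1 x w h).neg⟩⟩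

theorem sm (a : ℕ) (h : LF S i₀ R θ E ix s F o) :
    LF S i₀ R θ E ix s (fun x => a • F x) fun m => (o m).sm a :=
  h.elim fun f h => ⟨a • f, fun m => (h m).bind fun _ _ _ _ ⟨h2, h1⟩ => ok_kp fun _ =>
    (vo_of (h2.vr.sm a) h2.hT h2.vis).mono fun _ h3 => ⟨h3, fun x w h => (h1 x w h).nsmul a⟩⟩

theorem add (hL : (E.D.L s).Ok (ix s)) (h : LF S i₀ R θ E ix s F o)
    (h' : LF S i₀ R θ E ix s F' o') :
    LF S i₀ R θ E ix s (fun x => F x + F' x) fun m => (o m).add (E.D.L s) (o' m) :=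
  h.elim fun f h => h'.elim fun f' h' => ⟨f + f', fun m => (h m).bind fun _ _ _ _ ⟨h2, h1⟩ =>
    (h' m).bind fun _ _ _ _ ⟨h4, h3⟩ => ok_nw fun h5 _ _ h6 h7 h8 => by
      obtain rfl := Nat.eq_of_beq_eq_true h5
      exact (vo_of ((h2.cut hL h6.le_l h7.le_l).add (h4.cut hL h6.le_r h7.le_r)) h2.hT h8).mono
        fun _ h9 => ⟨h9, fun x w h => ((h1 x w h).mono (Le.mI h6.le_l) (Le.mI h7.le_l)).add
          ((h3 x w h).mono (Le.mI h6.le_r) (Le.mI h7.le_r))⟩⟩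

theorem sub (hL : (E.D.L s).Ok (ix s)) (h : LF S i₀ R θ E ix s F o)
    (h' : LF S i₀ R θ E ix s F' o') :
    LF S i₀ R θ E ix s (fun x => F x - F' x) fun m => (o m).sub (E.D.L s) (o' m) :=
  (h.add hL h'.neg).cast fun _ => (sub_eq_add_neg _ _).symm

variable {R' : Rs 3 K G'} {θ' : G' 0 → G' 0 → Cob Laz 1} {E' : JD} {ix' : ∀ q, G' (q + 1) → ℕ}

theorem op (hL : (E'.D.L s').Ok (ix' s')) {Y : X₀ → G' 0 → Cob Laz s'} {ω ω' a b : ℕ}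
    {π : WJ → WJ} (g : (G (s + 1) → A) →+ G' (s' + 1) → A)
    (ho : OP (E.D.L s) (ix s) (E'.D.L s') (ix' s') π g)
    (hr : ∀ x (T T' : ℕ) c c' u, s' ≤ E'.Q → (T' : ℤ) = T + ω - ω' → (T' : ℤ) ≤ E'.T →
      mI c * Jr K 3 ≤ mI c' → RcJ R θ s T (mI c) (mI c') (F x) u →
        RcJ R' θ' s' T' (mI (shC a b c)) (mI (shC a b c')) (Y x) (g u))
    (h : LF S i₀ R θ E ix s F o) :
    LF S i₀ R' θ' E' ix' s' Y fun m => WJ.op E' s' ω ω' a b π (o m) :=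
  h.elim fun f h => ⟨g.comp f, fun m => (h m).bind fun T c c' p ⟨h2, h1⟩ k hk => by
    obtain ⟨h3, h4⟩ := grd_spec (c := grd _ (grd _ (Nat.ble (T + ω - ω') E'.T))) hk
    obtain ⟨h5, h6⟩ := grd_spec h3
    obtain ⟨h6, h7⟩ := grd_spec h6
    obtain ⟨_, d, d', p', ⟨rfl, h8, h8', h9⟩, h10⟩ :=
      (ho _ _ (WJ.ok_pure h2)).fit hL _ _ _ k h4
    refine ⟨_, d, d', p', ⟨h9, fun x w hw => (hr x T _ c c' _ (Nat.le_of_ble_eq_true h5) ?_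
      (Int.ofNat_le.2 (Nat.le_of_ble_eq_true h7)) (Vis.mul h2.vis) (h1 x w hw)).mono (Le.mI h8)
      (Le.mI h8')⟩, h10⟩
    have h11 : ω' ≤ T + ω := Nat.le_of_ble_eq_true h6
    change ((T + ω - ω' : ℕ) : ℤ) = _
    omega⟩

theorem hm (hL : (E'.D.L s).Ok (ix' s)) {f : ∀ q, G q → G' q → ℤ} {ω₀ : ℤ} (hf : Hm R R' f ω₀)
    (hθ : ∀ c k', ∑ k, f 0 c k • θ' k k' = ∑ c', f 0 c' k' • θ c c') (ω ω' : ℕ)
    (e : ω₀ = ω - ω') {π : WJ → WJ}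
    (ho : OP (E.D.L s) (ix s) (E'.D.L s) (ix' s) π (zm _ (f (s + 1))))
    (h : LF S i₀ R θ E ix s F o) : LF S i₀ R' θ' E' ix' s (fun x => zm _ (f 0) (F x))
      fun m => WJ.op E' s ω ω' 0 0 π (o m) :=
  h.op hL _ ho fun _ T T' _ _ _ _ h2 _ _ h5 => by
    rw [shC_zero, shC_zero, show (T' : ℤ) = T + ω₀ by omega]
    exact rc_zm hf hθ h5

section

variable [DecidableEq (G 0)] {Tm s3 s4 : ℕ} (H : WxJ R θ E ix Tm s3 s4)

include H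

theorem lc {n : ℕ} {z : Cob Laz n} {ω a b : ℕ} (e : n + s = s') {π : WJ → WJ}
    (g : (G (s + 1) → A) →+ G (s' + 1) → A) {M : Ideal A}
    (ho : OQ (fun s => WR (E.D.L s) (ix s)) s s' π g) (hM : ∀ c, M * mI c ≤ mI (shC a b c))
    (hr : ∀ (w w' : ℤ) K₀ K₁ x u, P236EL.Inv 3 K₀ → P236EL.Inv 3 K₁ → K₀ * Jr K 3 ≤ K₁ →
      w' ≤ E.T → s' ≤ E.Q → ω + w = w' → RcJ R θ s w K₀ K₁ x u →
        RcJ R θ s' w' (M * K₀) (M * K₁) (P236EL.lc _ e z x) (g u)) (h : LF S i₀ R θ E ix s F o) :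
    LF S i₀ R θ E ix s' (fun x => P236EL.lc _ e z (F x)) fun m => WJ.op E s' ω 0 a b π (o m) :=
  h.op (H.cx.ok s') g ho fun _ T T' _ _ _ h1 h2 h3 h4 h5 =>
    (hr _ _ _ _ _ _ (inv_mI _) (inv_mI _) h4 h3 h1 (by omega) h5).mono (hM _) (hM _)

variable {t : Cob Laz 1} (ht : IsT1 3 t)

include ht

theorem vm (k : ℕ) (e : 0 + s = s) (h : LF S i₀ R θ E ix s F o) : LF S i₀ R θ E ix s
    (fun x => P236EL.lc _ e (v1 ^ k) (F x)) fun m => (o m).cvm E Tm s k :=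
  h.lc H e (AddMonoidHom.mk' _ (smul_add (X 0 ^ k : A))) (fun _ _ hv => hv.v1 (H.cx.hT s) k)
    (mI_shC_v k) fun _ _ _ _ _ _ h1 h2 h3 h4 h5 h6 => rc_vm H.wd h1 h2 h3 h4 ht h5 h6 e (inv_v k)

theorem v1 (e : 0 + s = s) (h : LF S i₀ R θ E ix s F o) : LF S i₀ R θ E ix s
    (fun x => P236EL.lc _ e v1 (F x)) fun m => (o m).cvm E Tm s 1 :=
  (h.vm H ht 1 e).cast fun _ => by rw [pow_one]

theorem tm (k : ℕ) (hz : (fun _ => t ^ k) ∈ ZS k 1) (e : 1 + s = s')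
    (h : LF S i₀ R θ E ix s F o) : LF S i₀ R θ E ix s' (fun x => P236EL.lc _ e (t ^ k) (F x))
      fun m => (o m).ctm E Tm s k := by
  obtain rfl : s' = s + 1 := by omega
  exact h.lc H e (dlH R s (X 0 ^ k)) ((pr_ok H.cx).tm k) CVJ.one_le
    fun _ _ _ _ _ _ h1 h2 h3 h4 h5 h6 h7 => by
      rw [one_mul, one_mul]
      exact rc_tm H.wd h1 h2 h3 h4 ht h5 hz h6 e h7

theorem t1 (e : 1 + s = s') (h : LF S i₀ R θ E ix s F o) : LF S i₀ R θ E ix s'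
    (fun x => P236EL.lc _ e t (F x)) fun m => (o m).ctm E Tm s 1 :=
  (h.tm H ht 1 (by rw [pow_one]; exact zs_t ht) e).cast fun _ => by rw [pow_one]

theorem bm (e : 2 + s = s') (h : LF S i₀ R θ E ix s F o) :
    LF S i₀ R θ E ix s' (fun x => lb t s e (F x)) fun m => (o m).cbm E Tm s := by
  obtain rfl : s' = s + 2 := by omega
  exact h.lc H (ω := 3) e ((dlH R (s + 1) (X 0 ^ (2 * 1))).comp (dlH R s (X 0 ^ 1)) +
      (dlH R (s + 1) (X 0 ^ 1)).comp (dlH R s (X 0 ^ (2 * 1)))) ((pr_ok H.cx).bm 1) CVJ.one_le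
    fun _ _ _ _ _ _ h1 h2 h3 h4 h5 h6 h7 => by
      rw [one_mul, one_mul]
      exact rc_bm H.wd h1 h2 h3 h4 ht h5 h6 e h7

omit ht

variable {f : ℕ} {z : Cob Laz 1} {y : Cob Laz 2}

theorem gm (hz : Grk f (k + 1) z y) (e : 1 + s = s') (h : LF S i₀ R θ E ix s F o) :
    LF S i₀ R θ E ix s' (fun x => P236EL.lc _ e z (F x)) fun m => (o m).cgm E Tm s (3 ^ f) k := by
  obtain rfl : s' = s + 1 := by omega
  have h0 : (3 : ℤ) ^ f * (4 * (k + 1 : ℕ) - 1) = (3 ^ f * (4 * k + 3) : ℕ) := by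
    push_cast
    ring
  exact h.lc H e (dlH R s (gF K f (k + 1))) ((pr_ok H.cx).gm f k) (mI_shC_I _)
    fun _ _ _ _ _ _ h1 h2 h3 h4 h5 h6 => rc_gm H.wd h1 h2 h3 h4 hz h5 (h0 ▸ h6) e

theorem b0 (hz : Grk 0 (k + 2) z y) (e : 2 + s = s') (h : LF S i₀ R θ E ix s F o) :
    LF S i₀ R θ E ix s' (fun x => P236EL.lc _ e y (F x)) fun m => (o m).cb0 E Tm s k := by
  obtain rfl : s' = s + 2 := by omega
  have h0 : (3 : ℤ) ^ 0 * (4 * (k + 2 : ℕ) - 1) = (4 * k + 7 : ℕ) := by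
    push_cast
    ring
  exact h.lc H e _ ((pr_ok H.cx).b0 k) (mI_shC_I _) fun _ _ _ _ _ _ h1 h2 h3 h4 h5 h6 =>
    rc_bk H.wd h1 h2 h3 h4 hz h5 (h0 ▸ h6) e

theorem b1 (hz : Grk (f + 1) (k + 2) z y) (e : 2 + s = s') (h : LF S i₀ R θ E ix s F o) :
    LF S i₀ R θ E ix s' (fun x => P236EL.lc _ e y (F x)) fun m => (o m).cb1 E Tm s (3 ^ f) k := by
  obtain rfl : s' = s + 2 := by omega
  have h0 : (3 : ℤ) ^ (f + 1) * (4 * (k + 2 : ℕ) - 1) = (3 ^ f * 3 * (4 * k + 7) : ℕ) := by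
    push_cast
    ring
  exact h.lc H e _ ((pr_ok H.cx).b1 f k) (mI_shC_I _) fun _ _ _ _ _ _ h1 h2 h3 h4 h5 h6 =>
    rc_bk H.wd h1 h2 h3 h4 hz h5 (h0 ▸ h6) e

theorem b2 (hz : Grk (f + 1) 1 z y) (e : 2 + s = s') (h : LF S i₀ R θ E ix s F o) :
    LF S i₀ R θ E ix s' (fun x => P236EL.lc _ e y (F x)) fun m => (o m).cb2 E Tm s (3 ^ f) := by
  obtain rfl : s' = s + 2 := by omega
  have h0 : (3 : ℤ) ^ (f + 1) * (4 * (1 : ℕ) - 1) = (3 ^ f * 9 : ℕ) := by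
    push_cast
    ring
  exact h.lc H e _ ((pr_ok H.cx).b2 f) (mI_shC_I _) fun _ _ _ _ _ _ h1 h2 h3 h4 h5 h6 =>
    rc_bk H.wd h1 h2 h3 h4 hz h5 (h0 ▸ h6) e

end

section cells

open Vale.Agent.P236KE.S90

variable {r : Rs 3 K sph.G} {h0 : r.deg 0 default = 0} {h1 : r.th default default = 1}
  {t : Cob Laz 1} {Tm s3 s4 : ℕ} (H : W3 r h0 h1 t E Tm s3 s4) {x₁ : X₀ → Fin 1 → Cob Laz s}
  {x₂ : X₀ → Fin 2 → Cob Laz s} {x₃ : X₀ → Fin 3 → Cob Laz s}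

include H

theorem jA (h : LF S i₀ (r.cA h0 h1) (θA t) (eA E) (iJ E 2) s x₂ o) :
    LF S i₀ r 0 E iS s (fun x _ => x₂ x 1) fun m => (o m).cjA E s :=
  (h.hm (H.S.cx.ok s) hm_jA nat_jA 0 1 rfl (op_pf (H.S.cx.ok s) 1)).cast
    fun x => funext (zm_pf_zero _ (x₂ x))

theorem jy (h : LF S i₀ (r.cY h0 h1) (θY t) (eY E) (iJ E 3) s x₃ o) :
    LF S i₀ r 0 E iS s (fun x _ => x₃ x 2) fun m => (o m).cjy E s :=
  (h.hm (H.S.cx.ok s) hm_jy nat_jy 0 2 rfl (op_pf (H.S.cx.ok s) 2)).cast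
    fun x => funext (zm_pf_zero _ (x₃ x))

theorem iA (h : LF S i₀ r 0 E iS s x₁ o) : LF S i₀ (r.cA h0 h1) (θA t) (eA E) (iJ E 2) s
    (fun x => ![x₁ x 0, 0]) fun m => (o m).ciA E s :=
  (h.hm (H.A.cx.ok s) hm_iA nat_iA 0 0 rfl (op_bf (H.S.cx.ok s) 0)).cast
    fun x => funext fun c : Fin 2 => by
      change ∑ a : Fin 1, (if c = 0 then 1 else 0 : ℤ) • x₁ x a = _
      fin_cases c <;> simp

theorem e0 (h : LF S i₀ r 0 E iS s x₁ o) : LF S i₀ (r.cY h0 h1) (θY t) (eY E) (iJ E 3) s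
    (fun x => ![x₁ x 0, 0, 0]) fun m => (o m).ce0 E s :=
  (h.hm (H.Y.cx.ok s) hm_e0 nat_e0 0 0 rfl (op_bf (H.S.cx.ok s) 0)).cast
    fun x => funext fun c : Fin 3 => by
      change ∑ a : Fin 1, (if c = 0 then 1 else 0 : ℤ) • x₁ x a = _
      fin_cases c <;> simp

theorem ee (h : LF S i₀ (r.cA h0 h1) (θA t) (eA E) (iJ E 2) s x₂ o) :
    LF S i₀ (r.cY h0 h1) (θY t) (eY E) (iJ E 3) s (fun x => ![x₂ x 0, x₂ x 1, 0])
      fun m => (o m).cee E s :=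
  (h.hm (H.Y.cx.ok s) hm_ee nat_ee 0 0 rfl H.op_ee).cast fun x => funext fun c : Fin 3 => by
    change ∑ i, sf 2 3 0 0 i c • x₂ x i = _
    fin_cases c <;> simp [sf]

theorem qq (h : LF S i₀ (r.cY h0 h1) (θY t) (eY E) (iJ E 3) s x₃ o) :
    LF S i₀ (r.cA h0 h1) (θA t) (eA E) (iJ E 2) s (fun x => ![x₃ x 1, x₃ x 2])
      fun m => (o m).cqq E s :=
  (h.hm (H.A.cx.ok s) hm_qq nat_qq 0 1 rfl H.op_qq).cast fun x => funext fun c : Fin 2 => by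
    change ∑ i, sf 3 2 1 0 i c • x₃ x i = _
    fin_cases c <;> simp [sf, Fin.sum_univ_succ]

theorem pp (h : LF S i₀ (r.cY h0 h1) (θY t) (eY E) (iJ E 3) s x₃ o) :
    LF S i₀ (r.cY h0 h1) (θY t) (eY E) (iJ E 3) s (fun x => ![x₃ x 1, x₃ x 2, 0])
      fun m => (o m).cpp E s := (h.qq H).ee H

theorem at' (h : LF S i₀ r 0 E iS s x₁ o) : LF S i₀ (r.cA h0 h1) (θA t) (eA E) (iJ E 2) (s + 1)
    (fun x j => Cob.cup (x₁ x 0) (![2 * t ^ 2, 2 * t] j)) fun m => (o m).cat E s :=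
  h.op (H.A.cx.ok _) (2 ^ (s + 1) • (zm _ (tf sph.G (sf 3 2 0 0) (s + 2))).comp
      (((r.cY h0 h1).sd (s + 1)).comp (zm _ (bf sph.G (2 : Fin 3) (s + 1)))))
    (fun _ _ hv => (H.op_ρ _ _ ((pr_ok H.Y.cx).sd _ _
      (op_bf (H.S.cx.ok s) (2 : Fin 3) _ _ hv))).sm _) fun x T₁ T' c c' u h2 h3 h4 h5 h6 => by
    have h7 := (rc_conn (w := T') (x := x₁ x) (u := u) H.Y.wd H.S.wd ses_A (s0_A H.ht) h2 h4
      (inv_mI _) (inv_mI _) h5 ((show (T₁ : ℤ) = T' + -2 by omega) ▸ h6)).zsmul ((-1) ^ (s + 1))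
    rw [sgn_eq, neg_zero, add_zero] at h7
    rw [shC_zero, shC_zero]
    exact (congrArg (RcJ _ _ _ _ _ _ · _) (cn_A (x₁ x))).mp h7

theorem ab (h : LF S i₀ (r.cA h0 h1) (θA t) (eA E) (iJ E 2) s x₂ o) : LF S i₀ r 0 E iS (s + 1)
    (fun x _ => Cob.cup (x₂ x 0) (2 * t) + Cob.cup (x₂ x 1) (2 * t ^ 2)) fun m => (o m).cab E s :=
  h.op (H.S.cx.ok _) (2 ^ (s + 1) • (zm _ (pf sph.G (0 : Fin 3) (s + 2))).comp
      (((r.cY h0 h1).sd (s + 1)).comp (zm _ (tf sph.G (sf 2 3 0 1) (s + 1)))))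
    (fun _ _ hv => (op_pf (H.S.cx.ok _) (0 : Fin 3) _ _ ((pr_ok H.Y.cx).sd _ _
      (H.op_σ _ _ hv))).sm _) fun x T₁ T' c c' u h2 h3 h4 h5 h6 => by
    have h7 := (rc_conn (w := T') (x := x₂ x) (u := u) H.Y.wd H.A.wd ses_S (s0_S H.ht) h2 h4
      (inv_mI _) (inv_mI _) h5 ((show (T₁ : ℤ) = T' + -1 by omega) ▸ h6)).zsmul ((-1) ^ (s + 1))
    rw [sgn_eq, neg_zero, add_zero] at h7
    rw [shC_zero, shC_zero]
    exact (congrArg (RcJ _ _ _ _ _ _ · _) (cn_S (x₂ x))).mp h7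

theorem al (h : LF S i₀ r 0 E iS s x₁ o) : LF S i₀ r 0 E iS (s + 1)
    (fun x _ => Cob.cup (x₁ x 0) (2 * t)) fun m => (o m).cal E s := (h.at' H).jA H

end cells

end LF

end Vale.Agent.P236JT

end
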