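import Vale.Agent.P236EL.Wg

/-!
# P236JT / Pr : the action of the Greek letter elements from primitive operations
-/

noncomputable section

namespace Vale.Agent.P236JT

open MvPolynomial Vale.Agent.P236EL Vale.Agent.P236KE Vale.Agent.P236K2 Vale.Agent.P236K3

/-- primitive operations on computations of vectors -/
structure Pr (Ct : Type) : Type where
  share : Ct → (Ct → Ct) → Ct
  add : Nat → Ct → Ct → Ct
  neg : Ct → Ct
  m1 : Nat → Ct → Ct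
  m2 : Nat → Ct → Ct
  shr : Nat → Nat → Ct → Ct
  dl : Nat → Nat → Nat → Ct → Ct

namespace Pr

variable {Ct : Type} (E : Pr Ct)

def sub (s : Nat) (v w : Ct) : Ct := E.add s v (E.neg w)
def h2 (s : Nat) (m : Nat → Ct → Ct) (f : Ct → Ct) (k : Nat) : Ct → Ct :=
  Nat.rec (motive := fun _ => Ct → Ct) f
    (fun k ih v => E.share v fun v => E.add s (m (Nat.succ k) (f v)) (ih (m 1 v))) k
def h3 (s : Nat) (m : Nat → Ct → Ct) (f f' : Ct → Ct) (k : Nat) : Ct → Ct :=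
  Nat.rec (motive := fun _ => Ct → Ct) (fun v => f (f' v))
    (fun k ih v => E.share v fun v => E.add s (E.h2 s m f (Nat.succ k) (f' v)) (ih (m 1 v))) k

variable (s : Nat)

/-- `t ^ c` -/
def tm (c : Nat) : Ct → Ct := E.dl s c c
/-- `v_1 ^ j t ^ c` -/
def vt (j c : Nat) (v : Ct) : Ct := E.m1 j (E.dl s c c (E.shr s j v))
def tT (n : Nat) (v : Ct) : Ct := E.share v fun v =>
  E.sub (Nat.succ s) (E.tm s (Nat.mul 3 n) v) (E.vt s (Nat.mul 2 n) n v)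
def tT2 (n : Nat) (v : Ct) : Ct := E.share v fun v =>
  E.add (Nat.succ s) (E.add (Nat.succ s) (E.tm s (Nat.mul 6 n) v)
    (E.vt s (Nat.mul 2 n) (Nat.mul 4 n) v)) (E.vt s (Nat.mul 4 n) (Nat.mul 2 n) v)
def mm (n j : Nat) : Ct → Ct := E.m2 (Nat.mul n j)
def e0 (v : Ct) : Ct := E.share v fun v => E.sub (Nat.succ s) (E.dl s 388 4 v) (E.vt s 3 1 v)
def e1 (n : Nat) (v : Ct) : Ct := E.m1 n (E.mm n 1 (E.tT s n (E.mm n 1 v)))
def a0 (v : Ct) : Ct := E.share v fun v => E.sub (Nat.succ s) (E.tm s 4 v) (E.vt s 2 2 v)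
def bm (k : Nat) (v : Ct) : Ct := E.share v fun v => E.add (Nat.succ (Nat.succ s))
  (E.tm (Nat.succ s) (Nat.mul 2 k) (E.tm s k v)) (E.tm (Nat.succ s) k (E.tm s (Nat.mul 2 k) v))
def d0 (v : Ct) : Ct := E.share v fun v => E.sub (Nat.succ (Nat.succ s)) (E.bm s 1 v)
  (E.m1 1 (E.tm (Nat.succ s) 1 (E.tm s 1 (E.shr s 1 v))))
def d1 (n : Nat) (v : Ct) : Ct := E.share v fun v => E.add (Nat.succ (Nat.succ s))
  (E.tT2 (Nat.succ s) n (E.tT s n v)) (E.tT (Nat.succ s) n (E.tT2 s n v))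
/-- the product with `β_(n (k + 1) / n)` modulo three -/
def gm (n k : Nat) : Ct → Ct := E.h2 (Nat.succ s) (E.mm n) (E.tT s n) k
/-- the product with `β_(k + 2)` -/
def b0 (k : Nat) (v : Ct) : Ct := E.share v fun v =>
  E.sub (Nat.succ (Nat.succ s)) (E.sub (Nat.succ (Nat.succ s)) (E.sub (Nat.succ (Nat.succ s))
      (E.h3 (Nat.succ (Nat.succ s)) (E.mm 1) (E.e0 (Nat.succ s)) (E.tT s 1) k v)
      (E.h3 (Nat.succ (Nat.succ s)) (E.mm 1) (E.tT (Nat.succ s) 1) (E.e0 s) k v))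
    (E.h3 (Nat.succ (Nat.succ s)) (E.mm 1) (E.a0 (Nat.succ s)) (E.tT s 1) k v))
  (E.h2 (Nat.succ (Nat.succ s)) (E.mm 1) (E.d0 s) (Nat.succ k) v)
/-- the product with `β_(3 n (k + 2) / 3 n)` -/
def b1 (n k : Nat) (v : Ct) : Ct := E.share v fun v =>
  E.sub (Nat.succ (Nat.succ s)) (E.sub (Nat.succ (Nat.succ s))
    (E.h3 (Nat.succ (Nat.succ s)) (E.mm (Nat.mul n 3)) (E.e1 (Nat.succ s) n)
      (E.tT s (Nat.mul n 3)) k v)
    (E.h3 (Nat.succ (Nat.succ s)) (E.mm (Nat.mul n 3)) (E.tT (Nat.succ s) (Nat.mul n 3))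
      (E.e1 s n) k v))
  (E.h2 (Nat.succ (Nat.succ s)) (E.mm (Nat.mul n 3)) (E.d1 s n) (Nat.succ k) v)
/-- the product with `β_(3 n / 3 n)` -/
def b2 (n : Nat) (v : Ct) : Ct := E.neg (E.d1 s n v)

end Pr

variable [Fact (Nat.Prime 3)] {G : ℕ → Type} [∀ q, Fintype (G q)] {Ct : Type}

/-- the primitive operations are correct -/
structure Pr.Ok (E : Pr Ct) (R : Rs 3 K G) (s3 s4 : ℕ)
    (rel : ∀ s, Ct → (G (s + 1) → A) → Prop) : Prop where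
  share : ∀ {s s' v u f u'}, rel s v u → (∀ v, rel s v u → rel s' (f v) u') →
    rel s' (E.share v f) u'
  add : ∀ {s v u v' u'}, rel s v u → rel s v' u' → rel s (E.add s v v') (u + u')
  neg : ∀ {s v u}, rel s v u → rel s (E.neg v) (-u)
  m1 : ∀ {s v u} k, rel s v u → rel s (E.m1 k v) ((X 0 ^ k : A) • u)
  m2 : ∀ {s v u} k, rel s v u → rel s (E.m2 k v) ((X 1 ^ k : A) • u)
  shr : ∀ {s v u} j, rel s v u → rel s (E.shr s j v) u
  dl : ∀ {s v u} F, rel s v u →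
    rel (s + 1) (E.dl s (cd s3 s4 F) (wtM F) v) (R.dl s (monomial F 1) u)

/-- the computation of an operator -/
def OQ (rel : ∀ s, Ct → (G (s + 1) → A) → Prop) (s s' : ℕ) (o : Ct → Ct)
    (f : (G (s + 1) → A) → G (s' + 1) → A) : Prop :=
  ∀ v u, rel s v u → rel s' (o v) (f u)

namespace Pr.Ok

variable {E : Pr Ct} {R : Rs 3 K G} {s3 s4 s s' s'' : ℕ} {rel : ∀ s, Ct → (G (s + 1) → A) → Prop}
  (h : E.Ok R s3 s4 rel)

include h

theorem sub {v v' : Ct} {u u' : G (s + 1) → A} (h1 : rel s v u) (h2 : rel s v' u') :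
    rel s (E.sub s v v') (u - u') := sub_eq_add_neg u u' ▸ h.add h1 (h.neg h2)

theorem h2 {m : ℕ → Ct → Ct} {c : A} (hm : ∀ s k, OQ rel s s (m k) (c ^ k • ·)) {o : Ct → Ct}
    {f : (G (s + 1) → A) → G (s' + 1) → A} (ho : OQ rel s s' o f) (k : ℕ) :
    OQ rel s s' (E.h2 s' m o k) (H2 c f (k + 1)) := by
  induction k with
  | zero => exact fun v u hv => by simpa [H2, Pr.h2] using ho v u hv
  | succ k ih =>
    refine fun v u hv => h.share (f := fun v => E.add s' (m (k + 1) (o v)) (E.h2 s' m o k (m 1 v)))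
      hv fun v hv => ?_
    have h1 := hm s 1 v u hv
    rw [pow_one] at h1
    exact h.add (hm _ _ _ _ (ho v u hv)) (ih _ _ h1)

theorem h3 {m : ℕ → Ct → Ct} {c : A} (hm : ∀ s k, OQ rel s s (m k) (c ^ k • ·)) {o o' : Ct → Ct}
    {f : (G (s' + 1) → A) → G (s'' + 1) → A} {f' : (G (s + 1) → A) → G (s' + 1) → A}
    (ho : OQ rel s' s'' o f) (ho' : OQ rel s s' o' f') (k : ℕ) :
    OQ rel s s'' (E.h3 s'' m o o' k) (H3 c f f' (k + 2)) := by
  induction k with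
  | zero => exact fun v u hv => by simpa [H3, H2, Pr.h3] using ho _ _ (ho' v u hv)
  | succ k ih =>
    refine fun v u hv => h.share (f := fun v => E.add s'' (E.h2 s'' m o (k + 1) (o' v))
      (E.h3 s'' m o o' k (m 1 v))) hv fun v hv => ?_
    have h1 := hm s 1 v u hv
    rw [pow_one] at h1
    exact h.add (h.h2 hm ho _ _ _ (ho' v u hv)) (ih _ _ h1)

theorem tm (k : ℕ) : OQ rel s (s + 1) (E.tm s k) (R.tm s k) := fun _ _ hv => by
  have h1 := h.dl (Finsupp.single 0 k) hv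
  rwa [← X_pow_eq_monomial, cd_0,
    show wtM (Finsupp.single 0 k) = k by simp [Finsupp.weight_single, wt]] at h1

theorem t2 : OQ rel s (s + 1) (E.dl s 388 4) (R.dl s (X 1)) := fun _ _ hv => by
  have h1 := h.dl (Finsupp.single 1 1) hv
  rwa [cd_1, show wtM (Finsupp.single 1 1) = 4 by simp [Finsupp.weight_single, wt]] at h1

theorem sd : OQ rel s (s + 1) (E.dl s 0 0) (R.sd (s + 1)) := fun _ u hv => by
  have h1 := h.dl 0 hv
  rw [show cd s3 s4 0 = 0 by simp [cd], show wtM 0 = 0 by simp] at h1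
  exact R.dl_one s u ▸ h1

theorem vt (j c : ℕ) : OQ rel s (s + 1) (E.vt s j c) (R.dl s (C (X 0 ^ j) * X 0 ^ c)) :=
    fun v u hv => by
  rw [Rs.dl_C_mul]
  exact h.m1 j (h.tm c _ _ (h.shr j hv))

theorem tT (f : ℕ) : OQ rel s (s + 1) (E.tT s (3 ^ f)) (R.dl s (P236EL.tT K ^ 3 ^ f)) :=
    fun v u hv => h.share hv fun v hv => by
  rw [tT_pow, Rs.dl_sub]
  exact h.sub (h.tm _ _ _ hv) (h.vt _ _ _ _ hv)

theorem tT2 (f : ℕ) : OQ rel s (s + 1) (E.tT2 s (3 ^ f)) (R.dl s ((P236EL.tT K ^ 3 ^ f) ^ 2)) :=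
    fun v u hv => h.share hv fun v hv => by
  rw [tT_sq, Rs.dl_add, Rs.dl_add]
  exact h.add (h.add (h.tm _ _ _ hv) (h.vt _ _ _ _ hv)) (h.vt _ _ _ _ hv)

theorem mm (n s j : ℕ) : OQ rel s s (E.mm n j) (((X 1 : A) ^ n) ^ j • ·) := fun v u hv => by
  rw [← pow_mul]
  exact h.m2 _ hv

theorem e0 : OQ rel s (s + 1) (E.e0 s) (R.dl s (εF K 0)) := fun v u hv => h.share hv fun v hv => by
  rw [εF, Rs.dl_sub, ← pow_one (X 0 : GG K)]
  exact h.sub (h.t2 _ _ hv) (h.vt _ _ _ _ hv)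

theorem e1 (f : ℕ) : OQ rel s (s + 1) (E.e1 s (3 ^ f)) (R.dl s (εF K (f + 1))) := fun v u hv => by
  have h1 := h.m1 (3 ^ f) (h.mm (3 ^ f) _ 1 _ _ (h.tT f _ _ (h.mm (3 ^ f) _ 1 _ _ hv)))
  rw [εF, Rs.dl_mul_etaR, Rs.dl_C_mul, mul_smul]
  rwa [pow_one] at h1

theorem a0 : OQ rel s (s + 1) (E.a0 s) (R.dl s (αF K 0 * P236EL.tT K ^ 3 ^ 0)) :=
    fun v u hv => h.share hv fun v hv => by
  rw [show αF K 0 * P236EL.tT K ^ 3 ^ 0 = X 0 ^ 4 - C (X 0 ^ 2) * X 0 ^ 2 by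
    rw [αF, P236EL.tT]; ring, Rs.dl_sub]
  exact h.sub (h.tm _ _ _ hv) (h.vt _ _ _ _ hv)

theorem bm (k : ℕ) : OQ rel s (s + 2) (E.bm s k) (R.bm s k) := fun _ _ hv =>
  h.share hv fun _ hv => h.add (h.tm _ _ _ (h.tm _ _ _ hv)) (h.tm _ _ _ (h.tm _ _ _ hv))

theorem d0 : OQ rel s (s + 2) (E.d0 s) (R.star 2 (s + 1) (s + 3) rfl (δF K 0)) :=
    fun v u hv => h.share hv fun v hv => by
  rw [δF, Rs.star_sub, Rs.star_add, Rs.star_arr2, Rs.star_arr2, Rs.star_arr2,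
    ← pow_one (X 0 : GG K), ← pow_one (X 0 : AA K), ← pow_mul, Rs.dl_C_mul]
  exact h.sub (h.bm 1 _ _ hv) (h.m1 1 (h.tm 1 _ _ (h.tm 1 _ _ (h.shr 1 hv))))

theorem d1 (f : ℕ) : OQ rel s (s + 2) (E.d1 s (3 ^ f))
    (R.star 2 (s + 1) (s + 3) rfl (δF K (f + 1))) := fun v u hv => h.share hv fun v hv => by
  rw [δF, Rs.star_add, Rs.star_arr2, Rs.star_arr2]
  exact h.add (h.tT2 f _ _ (h.tT f _ _ hv)) (h.tT f _ _ (h.tT2 f _ _ hv))

theorem gm (f k : ℕ) : OQ rel s (s + 1) (E.gm s (3 ^ f) k) (R.dl s (gF K f (k + 1))) :=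
    fun v u hv => by
  rw [gF, Rs.dl_gk]
  exact h.h2 (h.mm _) (h.tT f) k v u hv

theorem b0 (k : ℕ) : OQ rel s (s + 2) (E.b0 s k) (R.star 2 (s + 1) (s + 3) rfl (hF K 0 (k + 2))) :=
    fun v u hv => h.share hv fun v hv => by
  rw [hF, R.star_hk _ _ _ (δF_mem 0)]
  exact h.sub (h.sub (h.sub (h.h3 (h.mm _) h.e0 (h.tT 0) k v u hv)
    (h.h3 (h.mm _) (h.tT 0) h.e0 k v u hv)) (h.h3 (h.mm _) h.a0 (h.tT 0) k v u hv))
    (h.h2 (h.mm _) h.d0 _ v u hv)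

theorem b1 (f k : ℕ) : OQ rel s (s + 2) (E.b1 s (3 ^ f) k)
    (R.star 2 (s + 1) (s + 3) rfl (hF K (f + 1) (k + 2))) := fun v u hv => h.share hv fun v hv => by
  rw [hF, R.star_hk _ _ _ (δF_mem _), αF, zero_mul, dl_zero', H3_zero, sub_zero]
  exact h.sub (h.sub (h.h3 (h.mm _) (h.e1 f) (h.tT (f + 1)) k v u hv)
    (h.h3 (h.mm _) (h.tT (f + 1)) (h.e1 f) k v u hv)) (h.h2 (h.mm _) (h.d1 f) _ v u hv)

theorem b2 (f : ℕ) : OQ rel s (s + 2) (E.b2 s (3 ^ f))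
    (R.star 2 (s + 1) (s + 3) rfl (hF K (f + 1) 1)) := fun v u hv => by
  rw [hF, R.star_hk _ _ _ (δF_mem _)]
  simpa [H3, H2, Pr.b2] using h.neg (h.d1 f v u hv)

end Pr.Ok

end Vale.Agent.P236JT

end
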