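import Vale.Agent.P236JT.Gen
import Vale.Agent.P236JR.Crd
import Vale.Agent.P236EL.Cc

/-!
# P236JT / Tn : coordinates on the complex with cells
-/

noncomputable section

namespace Vale.Agent.P236JT

open MvPolynomial Vale.Agent.P236EL Vale.Agent.P236KE Vale.Agent.P236K2 Vale.Agent.P236K3
open Vale.Agent.P236F Vale.Agent.P236JR

variable {ι : Type} [Fintype ι] {Y : CD} {ic : ι → ℕ} {W : Type} {L : LD} {ix : W → ℕ} [Fintype W]
  {S : Mo → Prop} {m T : ℕ} {x : P}

theorem cq_tL (hL : L.Ok ix) (S : Mo → Prop) (u : W × ι → A) : cq (tL Y L) (tix L ix ic) S u =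
    ∑ c, sh (ic c * L.N) (cq L ix S fun w => u (w, c)) := by
  rw [cq_apply, Fintype.sum_prod_type, Finset.sum_comm]
  refine Finset.sum_congr rfl fun c _ => ?_
  rw [cq_apply, map_sum]
  exact Finset.sum_congr rfl fun w _ => by rw [sh_cqm, tix, tL_pos (hL.lt w)]

omit [Fintype W] in
theorem hm_cel (hL : L.Ok ix) {u : W × Fin m → A}
    (hu : P236K3.Hm (tL (cdN m) L) (tix L ix Fin.val) T u) (c : Fin m) :
    P236K3.Hm L ix (T - c) fun w => u (w, c) := fun w J hJ => by
  have h2 := hu (w, c) J hJ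
  rw [tix, tL_dg (hL.lt w)] at h2
  exact Nat.eq_sub_of_add_eq ((add_assoc _ _ _).trans h2)

/-- the component on a cell -/
theorem cel_R (hL : L.Ok ix) (hT : T ≤ L.T) {u : W × Fin m → A}
    (hu : P236K3.Hm (tL (cdN m) L) (tix L ix Fin.val) T u) (c : Fin m)
    (hx : x.R (cq (tL (cdN m) L) (tix L ix Fin.val) S u)) :
    (blk (c * L.N) (Nat.sub (Nat.shiftLeft 1 L.N) 1) x).R (cq L ix S fun w => u (w, c)) := by
  refine blk_R hx _ _ (fun q hq => ?_)
    fun q hq => cq_top hL ((Nat.sub_le _ _).trans hT) (hm_cel hL hu c) hq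
  rw [cq_tL hL, Finset.sum_apply, Finset.sum_eq_single c, sh_apply, if_pos (Nat.le_add_left _ _),
    Nat.add_sub_cancel]
  · intro c' _ h2
    rw [sh_apply]
    split_ifs with h3
    · refine cq_top hL ((Nat.sub_le _ _).trans hT) (hm_cel hL hu c') ?_
      rcases lt_or_gt_of_ne (Fin.val_ne_of_ne h2) with h4 | h4 <;>
        have := Nat.mul_le_mul_right L.N (Nat.succ_le_of_lt h4) <;> rw [Nat.succ_mul] at this <;>
        omega
    · rfl
  · exact fun h => absurd (Finset.mem_univ c) h

omit [Fintype W] in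
theorem hm_put (hL : L.Ok ix) {u : W → A} (hu : P236K3.Hm L ix T u) (c : Fin m) :
    P236K3.Hm (tL (cdN m) L) (tix L ix Fin.val) (T + c)
      fun a : W × Fin m => if a.2 = c then u a.1 else 0 := fun z J hJ => by
  dsimp only at hJ
  split_ifs at hJ with h3
  · rw [tix, tL_dg (hL.lt _), ← add_assoc, hu _ J hJ, h3]
    rfl
  · exact absurd rfl hJ

/-- the vector placed on a cell -/
theorem put_R (hL : L.Ok ix) {u : W → A} (c : Fin m) (hx : x.R (cq L ix S u)) :
    (x.shl (c * L.N)).R (cq (tL (cdN m) L) (tix L ix Fin.val) S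
      fun a : W × Fin m => if a.2 = c then u a.1 else 0) := by
  rw [cq_tL hL, Finset.sum_eq_single c]
  · simpa only [if_true] using hx.shl _
  · intro c' _ h3
    simp only [if_neg h3]
    exact (congrArg _ (map_zero _)).trans (map_zero _)
  · exact fun h => absurd (Finset.mem_univ c) h

end Vale.Agent.P236JT

end
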