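import Vale.Agent.P236JT.Tn
import Vale.Agent.P236JR.St

/-!
# P236JT / Ts : the rows modulo `v_1 ^ 3` of the complex with cells
-/

noncomputable section

namespace Vale.Agent.P236JT

open MvPolynomial Vale.Agent.P236EL Vale.Agent.P236KE Vale.Agent.P236K2 Vale.Agent.P236K3
open Vale.Agent.P236F Vale.Agent.P236JR

variable {ι : Type} [Fintype ι] [DecidableEq ι] {Y : CD} {Z' : Ga K ι} {ic : ι → ℕ} {o : ℤ}
  {W W' : Type} {L L' : LD} {ix : W → ℕ} {ix' : W' → ℕ} [Fintype W] [Fintype W']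
  [Fact (Nat.Prime 3)]

theorem stJ_tens (hY : Y.Ok Z' ic o) {y : W → W' → (ℕ →₀ ℕ) → A} {s3 s4 : ℕ} {r : Rw}
    (h : StJ y L ix L' ix' s3 s4 r) :
    StJ (ty Z' y) (tL Y L) (tix L ix ic) (tL Y L') (tix L' ix' ic) s3 s4 (tR Y r L L') := by
  refine ⟨tL_ok hY h.ok, tL_ok hY h.ok', hy_ty hY h.ok h.ok' h.hy,
    fun F a w e2 e3 e4 ha hT => tR_row hY h.ok (cq_tL h.ok' _) w fun n hn => ?_⟩
  rw [tix, tL_dg (h.ok.lt _)] at hT
  have h3 := h.row (F + Finsupp.single 0 n) a w.1 e2 e3 e4 ha (by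
    rw [wtM_add, show wt 3 0 = 1 from rfl]
    change _ ≤ L'.T at hT
    omega)
  rwa [cd_add, cd_0, add_right_comm] at h3

end Vale.Agent.P236JT

end
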