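import Vale.Agent.P236JT.Wn
import Vale.Agent.P236JT.Tm
import Vale.Agent.P236JT.Pr
import Vale.Agent.P236J3.Top

/-!
# P236JT / Wj : computations of vectors together with their weight and a general window
-/

noncomputable section

namespace Vale.Agent.P236JT

open MvPolynomial Vale.Agent.P236EL Vale.Agent.P236KE Vale.Agent.P236K2 Vale.Agent.P236K3
open Vale.Agent.P236F Vale.Agent.P236JR Vale.Agent.P236J3

/-- lists of corners -/
abbrev Cs : Type := List (ℕ × ℕ)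

/-- computations of a weight, a window and a vector -/
structure WJ : Type where
  run : (Nat → Cs → Cs → P → Bool) → Bool

/-- the terms have weight `T` and lie in the window -/
def okJ (L : LD) (T : Nat) (c c' : Cs) (l : List Tr) : Bool := l.all fun t =>
  decide (t.i < L.n ∧ t.e1 + 4 * t.e2 + 13 * t.e3 + 40 * t.e4 + L.dg t.i = T) &&
    (inU c t.e1 (t.e1 + t.e2 + t.e3 + t.e4) && !inU c' t.e1 (t.e1 + t.e2 + t.e3 + t.e4))

namespace WJ

def pure (T : Nat) (c c' : Cs) (p : P) : WJ := ⟨fun k => k T c c' p⟩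
def bind (v : WJ) (f : Nat → Cs → Cs → P → WJ) : WJ :=
  ⟨fun k => v.run fun T c c' p => (f T c c' p).run k⟩
/-- the window is unchanged -/
def kp (T : Nat) (c c' : Cs) (g : Bool) (v : Nat → VC) : WJ :=
  ⟨fun k => force T fun T => grd g ((v T).run (k T c c'))⟩
/-- a new window -/
def nw (T : Nat) (c c' : Cs) (g : Bool) (v : Nat → Cs → Cs → VC) : WJ :=
  ⟨fun k => force T fun T => nf c fun c => nf c' fun c' =>
    grd g (grd (Vis c c') ((v T c c').run (k T c c')))⟩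
def share (v : WJ) (f : WJ → WJ) : WJ := v.bind fun T c c' p => f (pure T c c' p)
def neg (v : WJ) : WJ := v.bind fun T c c' p => kp T c c' true fun _ => (cst' p).neg
def sm (a : Nat) (v : WJ) : WJ := v.bind fun T c c' p => kp T c c' true fun _ => (cst' p).sm a
def cut (L : LD) (T : Nat) (c c' e : Cs) (p : P) : VC :=
  Bool.rec (motive := fun _ => VC) (reJ L T c e (cst' p)) (cst' p) (Le e c')
def add (L : LD) (v w : WJ) : WJ := v.bind fun T c c' p => w.bind fun T' d d' p' =>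
  nw T (List.append c d) (List.append c' d') (Nat.beq T T') fun T _ e =>
    (cut L T c c' e p).add (cut L T d d' e p')
def sub (L : LD) (v w : WJ) : WJ := add L v w.neg
def mul (Tm dw a b s : Nat) (v : WJ) : WJ := v.bind fun T c c' p =>
  nw (Nat.add T dw) (shC a b c) (shC a b c') (Nat.ble (Nat.add T dw) Tm) fun _ _ _ => (cst' p).shl s
def dl (D : KD) (Q s x dw : Nat) (v : WJ) : WJ := v.bind fun T c c' p =>
  force s fun s => force (Nat.succ s) fun s' => force x fun x =>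
    kp (Nat.add T dw) c c' (grd (Nat.ble s' Q) (Nat.ble (Nat.add T dw) (D.L s').T)) fun T' =>
      D.dlJ s s' x T T' c c' (cst' p)
def shr (L : LD) (j : Nat) (v : WJ) : WJ := v.bind fun T c c' p =>
  nw T c (dnC j c') true fun T _ e => cut L T c c' e p
def fit (L : LD) (T₀ : Nat) (d d' : Cs) (v : WJ) : WJ := v.bind fun T c c' p =>
  nw T d (List.append c' d') (grd (Nat.beq T T₀) (Le c d)) fun T _ e => cut L T c c' e p
def lst (L : LD) (T : Nat) (c c' : Cs) (l : List Tr) : WJ :=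
  kp T c c' (grd (Nat.ble T L.T) (grd (Vis c c') (okJ L T c c' l))) fun _ => vcL L l
/-- the component on the cell `a` -/
def cel (L : LD) (a : Nat) (v : WJ) : WJ := v.bind fun T c c' p => ⟨fun k => force L.N fun N =>
  force (Nat.mul a N) fun s => force (Nat.sub (Nat.shiftLeft 1 N) 1) fun m =>
    (kp (Nat.sub T a) c c' (Nat.ble a T) fun _ => (cst' p).map (blk s m)).run k⟩
/-- the vector placed on the cell `a` -/
def put (L : LD) (a : Nat) (v : WJ) : WJ := v.bind fun T c c' p => ⟨fun k => force L.N fun N =>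
  force (Nat.mul a N) fun s =>
    (kp (Nat.add T a) c c' (Nat.ble (Nat.add T a) L.T) fun _ => (cst' p).shl s).run k⟩
/-- two cells are moved -/
def mv (L L' : LD) (a b a' b' : Nat) (v : WJ) : WJ := v.share fun v =>
  add L' (put L a' (cel L a v)) (put L b' (cel L b v))
/-- the primitive operations -/
def pr (D : KD) (Q Tm : Nat) : Pr WJ :=
  ⟨share, fun s => add (D.L s), neg, fun k => mul Tm k k k 0,
    fun k => mul Tm (Nat.mul 4 k) 0 k 0, fun s => shr (D.L s), dl D Q⟩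

/-- the results satisfy `Q` -/
def Ok (v : WJ) (Q : ℕ → Cs → Cs → P → Prop) : Prop :=
  ∀ k, v.run k = true → ∃ T c c' p, Q T c c' p ∧ k T c c' p = true

variable {v : WJ} {Q Q' : ℕ → Cs → Cs → P → Prop}

theorem Ok.mono (h : v.Ok Q) (h' : ∀ T c c' p, Q T c c' p → Q' T c c' p) : v.Ok Q' :=
    fun k hk => by
  obtain ⟨T, c, c', p, h1, h2⟩ := h k hk
  exact ⟨T, c, c', p, h' _ _ _ _ h1, h2⟩

theorem Ok.bind (h : v.Ok Q) {f : ℕ → Cs → Cs → P → WJ}
    (h' : ∀ T c c' p, Q T c c' p → (f T c c' p).Ok Q') : (v.bind f).Ok Q' := fun k hk => by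
  obtain ⟨T, c, c', p, h1, h2⟩ := h _ hk
  exact h' _ _ _ _ h1 k h2

theorem ok_pure {T : ℕ} {c c' : Cs} {p : P} (h : Q T c c' p) : (pure T c c' p).Ok Q :=
  fun _ hk => ⟨T, c, c', p, h, hk⟩

end WJ

/-- the computation gives a vector which satisfies `Q` -/
def VO (v : VC) (Q : P → Prop) : Prop := ∀ k, v.run k = true → ∃ p, Q p ∧ k p = true

theorem ok_kp {T : ℕ} {c c' : Cs} {g : Bool} {v : ℕ → VC} {Q : ℕ → Cs → Cs → P → Prop}
    (h : g = true → VO (v T) (Q T c c')) : (WJ.kp T c c' g v).Ok Q := fun k hk => by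
  obtain ⟨h1, h2⟩ := grd_spec (c := g) (r := (v T).run (k T c c')) hk
  obtain ⟨p, h3, h4⟩ := h h1 _ h2
  exact ⟨T, c, c', p, h3, h4⟩

theorem ok_nw {T : ℕ} {c c' : Cs} {g : Bool} {v : ℕ → Cs → Cs → VC}
    {Q : ℕ → Cs → Cs → P → Prop} (h : g = true → ∀ d d', Eqv c d → Eqv c' d' → Vis d d' = true →
      VO (v T d d') (Q T d d')) : (WJ.nw T c c' g v).Ok Q := fun k hk => by
  obtain ⟨d, h1, h2⟩ := nf_spec (c := c) hk
  obtain ⟨d', h3, h4⟩ := nf_spec h2
  obtain ⟨h5, h6⟩ := grd_spec h4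
  obtain ⟨h7, h8⟩ := grd_spec h6
  obtain ⟨p, h9, h10⟩ := h h5 d d' h1 h3 h7 _ h8
  exact ⟨T, d, d', p, h9, h10⟩

theorem le_of {c c' : Cs} (h : ∀ J, InU c J → InU c' J) : Le c c' = true :=
  List.all_eq_true.2 fun x hx => by
    have h1 := h (Finsupp.single 0 x.1 + Finsupp.single 1 (max x.1 x.2 - x.1))
    rw [InU, InU, len_add, len_single, len_single, Finsupp.add_apply, Finsupp.single_eq_same,
      Finsupp.single_eq_of_ne (by omega), add_zero, Nat.add_sub_cancel' (le_max_left _ _)] at h1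
    exact h1 (inU_iff.2 ⟨x, hx, le_rfl, le_max_right _ _⟩)

theorem Eqv.le_l {c c' d : Cs} (h : Eqv (List.append c c') d) : Le c d = true :=
  le_of fun J h1 => (h J).1 (InU_append.2 (.inl h1))

theorem Eqv.le_r {c c' d : Cs} (h : Eqv (List.append c c') d) : Le c' d = true :=
  le_of fun J h1 => (h J).1 (InU_append.2 (.inr h1))

theorem Eqv.le {c d : Cs} (h : Eqv c d) : Le c d = true := le_of fun J => (h J).1

theorem le_trans' {c d e : Cs} (h : Le c d = true) (h' : Le d e = true) : Le c e = true :=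
  le_of fun _ h1 => Le.InU h' (Le.InU h h1)

variable {W W' : Type} [Fintype W] [Fintype W'] {L L' : LD} {ix : W → ℕ} {ix' : W' → ℕ} {T : ℕ}
  {c c' d d' e : Cs} {p : P} {v v' : WJ} {u u' : W → A}

variable (L ix) in
/-- a value in a correct window -/
structure WP (u : W → A) (T : ℕ) (c c' : Cs) (p : P) : Prop where
  hT : T ≤ L.T
  vis : Vis c c' = true
  hz : u ∈ HJ L ix T c
  r : p.R (cq L ix (Wn c c') u)

theorem WP.vr (h : WP L ix u T c c' p) : VRJ L ix T c c' (cst' p) u :=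
  ⟨h.hz, fun _ hk => ⟨p, h.r, hk⟩⟩

theorem vo_of {w : VC} (h : VRJ L ix T c c' w u) (hT : T ≤ L.T) (hv : Vis c c' = true) :
    VO w (WP L ix u T c c') := fun k hk =>
  (h.run k hk).imp fun _ h1 => ⟨⟨hT, hv, h.hz, h1.1⟩, h1.2⟩

theorem VO.mono {w : VC} {Q Q' : P → Prop} (h : VO w Q) (h' : ∀ p, Q p → Q' p) : VO w Q' :=
  fun k hk => (h k hk).imp fun p h1 => ⟨h' p h1.1, h1.2⟩

theorem vr_cg {w : VC} (h : VRJ L ix T c c' w u) (h1 : Le c d = true)
    (h2 : ∀ J, InU c' J ↔ InU d' J) : VRJ L ix T d d' w u :=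
  ⟨HJ_mono h1 h.hz, fun k hk => by
    rw [cq_congr (S := Wn d d') (S' := Wn c c') fun w J hJ => and_congr
      (iff_of_true (Le.InU h1 (h.hz.2 w J hJ)) (h.hz.2 w J hJ)) (not_congr (h2 J).symm)]
    exact h.run k hk⟩

theorem WP.cut (hL : L.Ok ix) (h : WP L ix u T c c' p) (h1 : Le c d = true) (h2 : Le c' e = true) :
    VRJ L ix T d e (WJ.cut L T c c' e p) u :=
  bool_ind (Q := fun w => VRJ L ix T d e w u)
    (h.vr.re hL h.hT h.vis h1 h2)
    fun h3 => vr_cg h.vr h1 fun _ => ⟨Le.InU h2, Le.InU h3⟩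

variable (L ix) in
/-- the computation gives the coordinates of `u` -/
def WR (v : WJ) (u : W → A) : Prop := v.Ok (WP L ix u)

namespace WR

theorem share (h : WR L ix v u) {f : WJ → WJ} {Q : ℕ → Cs → Cs → P → Prop}
    (h' : ∀ v, WR L ix v u → (f v).Ok Q) : (v.share f).Ok Q :=
  WJ.Ok.bind h fun _ _ _ _ h1 => h' _ (WJ.ok_pure h1)

theorem neg (h : WR L ix v u) : WR L ix v.neg (-u) := WJ.Ok.bind h fun _ _ _ _ h1 =>
  ok_kp fun _ => vo_of h1.vr.neg h1.hT h1.vis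

theorem sm (a : ℕ) (h : WR L ix v u) : WR L ix (v.sm a) (a • u) := WJ.Ok.bind h fun _ _ _ _ h1 =>
  ok_kp fun _ => vo_of (h1.vr.sm a) h1.hT h1.vis

theorem add (hL : L.Ok ix) (h : WR L ix v u) (h' : WR L ix v' u') :
    WR L ix (v.add L v') (u + u') := WJ.Ok.bind h fun _ _ _ _ h1 =>
  WJ.Ok.bind h' fun _ _ _ _ h2 => ok_nw fun h3 _ _ h4 h5 h6 => by
    obtain rfl := Nat.eq_of_beq_eq_true h3
    exact vo_of ((h1.cut hL h4.le_l h5.le_l).add (h2.cut hL h4.le_r h5.le_r)) h1.hT h6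

theorem sub (hL : L.Ok ix) (h : WR L ix v u) (h' : WR L ix v' u') :
    WR L ix (v.sub L v') (u - u') := sub_eq_add_neg u u' ▸ h.add hL h'.neg

theorem mul {Tm : ℕ} (hT : L.T = Tm) (M : Mo) {dw a b s : ℕ} (h1 : wtM M = dw) (h2 : M 0 = a)
    (h2' : lenM M = b) (h3 : pl M = s) (h : WR L ix v u) :
    WR L ix (v.mul Tm dw a b s) ((monomial M 1 : A) • u) :=
  WJ.Ok.bind h fun T c c' p h4 => ok_nw fun h5 d d' h6 h7 h8 => by
    subst h1 h2 h2' h3 hT
    have h9 : ∀ w J, coeff J (monomial M 1 * u w) ≠ 0 → ∃ J', J = M + J' ∧ coeff J' (u w) ≠ 0 :=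
      fun w J hJ => by
        classical
        rw [coeff_monomial_mul'] at hJ
        split_ifs at hJ with h10
        · exact ⟨_, (add_tsub_cancel_of_le h10).symm, right_ne_zero_of_mul hJ⟩
        · exact absurd rfl hJ
    refine fun k hk => ⟨_, ⟨Nat.le_of_ble_eq_true h5, h8, ⟨fun w J hJ => ?_, fun w J hJ => ?_⟩, ?_⟩,
      hk⟩
    · obtain ⟨J', rfl, h10⟩ := h9 w J hJ
      rw [wtM, map_add, add_assoc, h4.hz.1 w J' h10, add_comm]
      rfl
    · obtain ⟨J', rfl, h10⟩ := h9 w J hJ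
      exact (h6 _).1 ((InU_shC M).2 (h4.hz.2 w J' h10))
    · refine (congrArg _ ((cq_mul _ M u).trans (congrArg _ (cq_congr fun w J _ => ?_)))).mpr
        (h4.r.shl _)
      rw [Wn, Wn, ← h6, ← h7, InU_shC, InU_shC]

theorem v1 {Tm : ℕ} (hT : L.T = Tm) (k : ℕ) (h : WR L ix v u) :
    WR L ix (v.mul Tm k k k 0) ((X 0 ^ k : A) • u) := by
  rw [X_pow_eq_monomial]
  exact h.mul hT _ (by simp [Finsupp.weight_single, wt]) (by simp) (len_single 0 k) (pl_0 k)

theorem v2 {Tm : ℕ} (hT : L.T = Tm) (k : ℕ) (h : WR L ix v u) :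
    WR L ix (v.mul Tm (Nat.mul 4 k) 0 k 0) ((X 1 ^ k : A) • u) := by
  rw [X_pow_eq_monomial]
  exact h.mul hT _ (by simp [Finsupp.weight_single, wt, mul_comm]) (by simp) (len_single 1 k)
    (pl_1 k)

theorem shr (hL : L.Ok ix) (j : ℕ) (h : WR L ix v u) : WR L ix (v.shr L j) u :=
  WJ.Ok.bind h fun _ _ _ _ h1 => ok_nw fun _ _ _ h2 h3 h4 =>
    vo_of (h1.cut hL h2.le (le_of fun J h5 => (h3 J).1 (InU_dnC j h5))) h1.hT h4

theorem fit (hL : L.Ok ix) (h : WR L ix v u) (T₀ : ℕ) (d d' : Cs) : (v.fit L T₀ d d').Ok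
    fun T c c' p => T = T₀ ∧ Le d c = true ∧ Le d' c' = true ∧ WP L ix u T c c' p :=
  WJ.Ok.bind h fun _ _ _ _ h1 => ok_nw fun h2 _ _ h3 h4 h5 => by
    obtain ⟨h6, h7⟩ := grd_spec h2
    exact (vo_of (h1.cut hL (le_trans' h7 h3.le) h4.le_l) h1.hT h5).mono
      fun _ h8 => ⟨Nat.eq_of_beq_eq_true h6, h3.le, h4.le_r, h8⟩

end WR

theorem vr_vL (hL : L.Ok ix) {l : List Tr} (h : okJ L T c c' l = true) :
    VRJ L ix T c c' (vcL L l) (vL ix l) := by
  induction l with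
  | nil => exact VRJ.zero
  | cons t l ih =>
    rw [okJ, List.all_cons, Bool.and_eq_true, Bool.and_eq_true, Bool.and_eq_true,
      decide_eq_true_iff, Bool.not_eq_true'] at h
    obtain ⟨⟨⟨h1, h2⟩, h3, h4⟩, h5⟩ := h
    obtain ⟨g, hg⟩ := hL.sur _ h1
    have h6 : lenM (mk4 t.e1 t.e2 t.e3 t.e4) = t.e1 + t.e2 + t.e3 + t.e4 := by
      rw [lenM, weight_mk4]
      omega
    have h7 := VRJ.mon (L := L) (ix := ix) (T := T) (c := c) (c' := c') g
      (J := mk4 t.e1 t.e2 t.e3 t.e4) (by rw [wtM, weight_wt_mk4, hg, h2])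
      ⟨by rwa [InU, h6, mk4_0], by rw [InU, h6, mk4_0, h4]; exact Bool.false_ne_true⟩
    rw [mk4_2, mk4_3, hg] at h7
    refine (congrArg _ (funext fun g' => ?_)).mp ((h7.sm t.c).add (ih h5))
    rw [Pi.add_apply, vL, vL, List.map_cons, List.sum_cons, ← hg, Pi.smul_apply]
    by_cases h8 : g' = g
    · rw [h8, bv_self, if_pos rfl]
    · rw [bv_ne h8, if_neg fun h9 => h8 (hL.inj h9), smul_zero]

theorem ok_lst (hL : L.Ok ix) (T : ℕ) (c c' : Cs) (l : List Tr) : (WJ.lst L T c c' l).Ok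
    fun T' d d' p => T' = T ∧ d = c ∧ d' = c' ∧ WP L ix (vL ix l) T' d d' p :=
  ok_kp fun h => by
    obtain ⟨h1, h2⟩ := grd_spec h
    obtain ⟨h3, h4⟩ := grd_spec h2
    exact (vo_of (vr_vL hL h4) (Nat.le_of_ble_eq_true h1) h3).mono fun _ h5 => ⟨rfl, rfl, rfl, h5⟩

/-- the computation of an operator -/
def OP (L : LD) (ix : W → ℕ) (L' : LD) (ix' : W' → ℕ) (o : WJ → WJ) (f : (W → A) → W' → A) :
    Prop :=
  ∀ v u, WR L ix v u → WR L' ix' (o v) (f u)

theorem OP.cast {o : WJ → WJ} {f f' : (W → A) → W' → A} (h : OP L ix L' ix' o f)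
    (e : ∀ u, f u = f' u) : OP L ix L' ix' o f' := fun v u hv => e u ▸ h v u hv

theorem op_cel (hL : L.Ok ix) {m : ℕ} (a : Fin m) : OP (tL (cdN m) L) (tix L ix Fin.val) L ix
    (WJ.cel L a) fun u w => u (w, a) := fun _ _ hv => WJ.Ok.bind hv fun T _ _ p h1 =>
  ok_kp (g := Nat.ble a T) (v := fun _ => (cst' p).map (blk (a * L.N)
    (Nat.sub (Nat.shiftLeft 1 L.N) 1))) fun _ _ hk => ⟨_, ⟨(Nat.sub_le _ _).trans h1.hT, h1.vis,
      ⟨hm_cel hL h1.hz.1 a, fun w => h1.hz.2 (w, a)⟩, cel_R hL h1.hT h1.hz.1 a h1.r⟩, hk⟩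

theorem op_put (hL : L.Ok ix) {m : ℕ} (a : Fin m) : OP L ix (tL (cdN m) L) (tix L ix Fin.val)
    (WJ.put L a) fun u z => if z.2 = a then u z.1 else 0 := fun _ _ hv =>
  WJ.Ok.bind hv fun T _ _ p h1 => ok_kp (g := Nat.ble (T + a) L.T)
    (v := fun _ => (cst' p).shl (a * L.N)) fun h2 _ hk => ⟨_, ⟨Nat.le_of_ble_eq_true h2, h1.vis,
      ⟨hm_put hL h1.hz.1 a, fun z => by
        dsimp only
        split_ifs
        exacts [h1.hz.2 _, zero_mem _]⟩, put_R hL a h1.r⟩, hk⟩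

theorem op_mv (hL : L.Ok ix) {m n : ℕ} (hL' : (tL (cdN n) L).Ok (tix L ix (Fin.val (n := n))))
    (a b : Fin m) (a' b' : Fin n) : OP (tL (cdN m) L) (tix L ix Fin.val) (tL (cdN n) L)
      (tix L ix Fin.val) (WJ.mv L (tL (cdN n) L) a b a' b') fun u z =>
        (if z.2 = a' then u (z.1, a) else 0) + if z.2 = b' then u (z.1, b) else 0 :=
  fun _ u hv => hv.share fun v hv => (op_put hL a' _ _ (op_cel hL a v u hv)).add hL'
    (op_put hL b' _ _ (op_cel hL b v u hv))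

variable [Fact (Nat.Prime 3)] {G : ℕ → Type} [∀ q, Fintype (G q)] {R : Rs 3 K G} {Q Tm s3 s4 s : ℕ}
  {D : KD} {ix : ∀ q, G (q + 1) → ℕ} {o : ℤ}

/-- the primitive operations are correct -/
theorem pr_ok (h : CxJ R o Q Tm s3 s4 D ix) :
    (WJ.pr D Q Tm).Ok R s3 s4 fun s => WR (D.L s) (ix s) where
  share h1 h2 := h1.share h2
  add h1 h2 := h1.add (h.ok _) h2
  neg h1 := h1.neg
  m1 k h1 := h1.v1 (h.hT _) k
  m2 k h1 := h1.v2 (h.hT _) k
  shr j h1 := h1.shr (h.ok _) j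
  dl F hv := WJ.Ok.bind hv fun _ _ _ _ h1 => ok_kp fun h2 =>
    have h3 := Nat.le_of_ble_eq_true (grd_spec h2).2
    vo_of (h.dl F (Nat.le_of_ble_eq_true (grd_spec h2).1) rfl rfl rfl (h.hT _ ▸ h3) h1.vis h1.vr)
      h3 h1.vis

/-- **The data of the complex with cells.** -/
theorem cxJ_tens [Unique (G 0)] {ι : Type} [Fintype ι] [DecidableEq ι] {Y : CD} {Z' : Ga K ι}
    {ic : ι → ℕ} {o' : ℤ} (h : CxJ R o' Q Tm s3 s4 D ix) (hY : Y.Ok Z' ic o)
    (h0 : R.deg 0 default = 0) (h1 : R.th default default = 1) :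
    CxJ (R.tens h0 h1 (Z'.cm 3)) (o' + o) Q Tm s3 s4 (tK Y D) fun q => tix (D.L q) (ix q) ic :=
  ⟨fun q hq => stM_tens hY (h.st q hq), fun q => tL_ok hY (h.ok q), fun q a => by
    change R.deg (q + 1) a.1 + Z'.d a.2 = ((tL Y (D.L q)).dg (_ + _) : ℕ) + _
    rw [tL_dg ((h.ok q).lt _), h.deg, hY.d]
    omega, h.hT⟩

end Vale.Agent.P236JT

end
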