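import Vale.Agent.P236J3.Up
import Vale.Agent.P236EL.Wc

/-!
# P236JT / Wn : normal forms and shifts of lists of corners
-/

noncomputable section

namespace Vale.Agent.P236JT

open MvPolynomial Vale.Agent.P236EL Vale.Agent.P236KE Vale.Agent.P236K2 Vale.Agent.P236K3
open Vale.Agent.P236J3

/-- the maximum -/
def mx (a b : Nat) : Nat := Nat.add a (Nat.sub b a)

theorem mx_eq (a b : ℕ) : mx a b = max a b := by
  change a + (b - a) = _
  omega

def nf3 (ih : P236J3.CL → (P236J3.CL → Bool) → Bool) (acc : P236J3.CL) (k : P236J3.CL → Bool)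
    (a b : Nat) : Bool :=
  Bool.rec (motive := fun _ => Bool) (ih ((a, b) :: acc) k) (ih acc k) (inU acc a b)
def nf2 (ih : P236J3.CL → (P236J3.CL → Bool) → Bool) (acc : P236J3.CL) (k : P236J3.CL → Bool)
    (b a : Nat) : Bool := force (mx a b) (nf3 ih acc k a)
def nf1 (x : Nat × Nat) (_ : P236J3.CL) (ih : P236J3.CL → (P236J3.CL → Bool) → Bool)
    (acc : P236J3.CL) (k : P236J3.CL → Bool) : Bool := force x.1 (nf2 ih acc k x.2)
def nf0 (acc : P236J3.CL) (k : P236J3.CL → Bool) : Bool := k acc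
def nfA (c : P236J3.CL) : P236J3.CL → (P236J3.CL → Bool) → Bool :=
  List.rec (motive := fun _ => P236J3.CL → (P236J3.CL → Bool) → Bool) nf0 nf1 c
def nfB (k : P236J3.CL → Bool) (l : P236J3.CL) : Bool := nfA l [] k
/-- evaluation of a list of corners; corners which lie above other corners are dropped -/
def nf (c : P236J3.CL) (k : P236J3.CL → Bool) : Bool := nfA c [] (nfB k)

/-- two lists describe the same ideal -/
def Eqv (c c' : P236J3.CL) : Prop := ∀ J, InU c J ↔ InU c' J

variable {c c' c₁ : P236J3.CL} {k : P236J3.CL → Bool} {J : ℕ →₀ ℕ}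

theorem Eqv.mI (h : Eqv c c') : mI c = mI c' :=
  Ideal.ext fun _ => forall_congr' fun J => imp_congr_right fun _ => h J

theorem InU_iff : InU c J ↔ ∃ x ∈ c, x.1 ≤ J 0 ∧ x.2 ≤ lenM J := inU_iff

theorem InU_append : InU (c ++ c') J ↔ InU c J ∨ InU c' J := by
  simp only [InU_iff, List.mem_append, or_and_right, exists_or]

theorem InU_cons {x : ℕ × ℕ} : InU (x :: c) J ↔ (x.1 ≤ J 0 ∧ x.2 ≤ lenM J) ∨ InU c J := by
  simp only [InU_iff, List.exists_mem_cons_iff]

theorem nfA_spec (h : nfA c c₁ k = true) :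
    ∃ c', (∀ J, InU c' J ↔ InU c J ∨ InU c₁ J) ∧ k c' = true := by
  induction c generalizing c₁ with
  | nil => exact ⟨c₁, fun J => by simp [InU_iff], h⟩
  | cons x c ih =>
    change nf3 (nfA c) c₁ k x.1 (mx x.1 x.2) = true at h
    rw [nf3, mx_eq] at h
    cases h1 : inU c₁ x.1 (max x.1 x.2) <;> rw [h1] at h <;> obtain ⟨c', h2, h3⟩ := ih h <;>
      refine ⟨c', fun J => ?_, h3⟩ <;> rw [h2, InU_cons]
    · have h4 := le_len J
      rw [InU_cons, max_le_iff]
      exact ⟨fun h => h.elim (.inl ∘ .inr) (·.elim (fun h => .inl (.inl ⟨h.1, h.2.2⟩)) .inr),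
        fun h => h.elim (·.elim (fun h => .inr (.inl ⟨h.1, h.1.trans h4, h.2⟩)) .inl)
          (.inr ∘ .inr)⟩
    · exact ⟨Or.imp_left .inr, fun h => h.elim (·.elim (fun h => .inr
        (inU_mono h1 h.1 (max_le (h.1.trans (le_len J)) h.2))) .inl) .inr⟩

theorem nf_spec (h : nf c k = true) : ∃ c', Eqv c c' ∧ k c' = true := by
  obtain ⟨c₁, h1, h2⟩ := nfA_spec h
  obtain ⟨c₂, h3, h4⟩ := nfA_spec h2
  exact ⟨c₂, fun J => by rw [h3, h1]; simp [InU_iff], h4⟩

/-- the corners of the multiples by a monomial -/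
def shC (a b : Nat) (c : P236J3.CL) : P236J3.CL :=
  List.rec (motive := fun _ => P236J3.CL) [] (fun x _ ih => (Nat.add x.1 a, Nat.add x.2 b) :: ih) c

/-- the corners of the quotient by a power of `v_1` -/
def dnC (a : Nat) (c : P236J3.CL) : P236J3.CL :=
  List.rec (motive := fun _ => P236J3.CL) [] (fun x _ ih => (Nat.sub x.1 a, Nat.sub x.2 a) :: ih) c

theorem InU_shC (M : ℕ →₀ ℕ) : InU (shC (M 0) (lenM M) c) (M + J) ↔ InU c J := by
  induction c with
  | nil => exact ⟨fun h => Bool.noConfusion h, fun h => Bool.noConfusion h⟩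
  | cons x c ih =>
    change InU ((x.1 + M 0, x.2 + lenM M) :: shC _ _ c) _ ↔ _
    rw [InU_cons, InU_cons, ih, len_add, Finsupp.add_apply, add_comm (M 0), add_comm (lenM M),
      Nat.add_le_add_iff_right, Nat.add_le_add_iff_right]

theorem InU_dnC (a : ℕ) (h : InU c J) : InU (dnC a c) J := by
  induction c with
  | nil => exact h
  | cons x c ih =>
    change InU ((x.1 - a, x.2 - a) :: dnC a c) _
    rw [InU_cons] at h ⊢
    exact h.imp (fun h => ⟨(Nat.sub_le _ _).trans h.1, (Nat.sub_le _ _).trans h.2⟩) ih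

theorem mI_shC (a j : ℕ) (c : P236J3.CL) :
    Ideal.span {(X 0 ^ a : A)} * I ^ j * mI c ≤ mI (shC a (a + j) c) := by
  induction c with
  | nil => rw [mI_nil, Ideal.mul_bot]; exact bot_le
  | cons x c ih =>
    change _ ≤ mI ([(x.1 + a, x.2 + (a + j))] ++ shC _ _ c)
    rw [← List.singleton_append, mI_append, mI_append, Ideal.mul_sup]
    refine sup_le_sup ?_ ih
    rw [mI_single, mI_single, mul_mul_mul_comm, Ideal.span_singleton_mul_span_singleton, ← pow_add,
      ← pow_add, add_comm a]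
    exact Ideal.mul_mono_right (Ideal.pow_le_pow_right (by omega))

theorem mI_shC_I (j : ℕ) (c : P236J3.CL) : I ^ j * mI c ≤ mI (shC 0 j c) := by
  simpa using mI_shC 0 j c

theorem mI_shC_v (a : ℕ) (c : P236J3.CL) :
    Ideal.span {(X 0 ^ a : A)} * mI c ≤ mI (shC a a c) := by
  simpa using mI_shC a 0 c

end Vale.Agent.P236JT

end
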